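import Vale.Agent.P284.H402.T.Pt
import Vale.Agent.P284.H977.T.T9

/-!
# P284, theorem T3 (A'')_W (helper402): the densities on the base, integration by parts
-/

open scoped Manifold ContDiff Topology Pointwise ComplexConjugate ComplexOrder Matrix InnerProductSpace
open Filter Set Metric MeasureTheory

noncomputable section

namespace Vale.Agent.P284.H402.T

open Vale.Agent.P272.K Vale.Agent.P272.K.C2 Vale.Agent.P284.H248 Vale.Agent.P284.H894
  Vale.Agent.P284.H894.G Vale.Agent.P284.H894.V Vale.Agent.P284.H913.V Vale.Agent.P284.H402.A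
  Vale.Agent.P284.H359.V

open Vale.Agent.P284.H639.V (isOpen_Ω V_sub_Ω O_sub_Ω T_mem_Ω)
open Vale.Agent.P284.H66.S7 (BInt_congr BInt_smul)
open Vale.Agent.P284.H977.T (BInt_mono' BInt_comb')

open Vale.Agent.P284.H287.T (dH ddH Sec cmp Good exists_good exists_good₂ grH lapH hhH
  cmp_contDiffAt sg ddH_cmp dH_cmp)

theorem mc_EE {n q : ℕ} {w : Cm n → Matrix (Fin n) (Fin n) ℂ}
    {θ : Cm n → Matrix (Fin n) (Fin q) ℂ} {z : Cm n} (hw : MC ∞ w z) (h0 : (w z).det ≠ 0)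
    (hθ : MC ∞ θ z) : MC ∞ (fun y => EE (w y) (θ y)) z := by
  intro i j
  simp only [EE, Matrix.of_apply]
  refine ContDiffAt.sum fun k _ => ?_
  have h1 : ∀ i : Fin n, MC ∞ (fun y => (θ y).updateCol k (Pi.single i 1)) z := fun i =>
    mc_updateCol (α := fun _ => Pi.single i 1) hθ (fun _ => contDiffAt_const) k
  exact (((h1 i).conjTranspose.mul (hw.inv h0)).mul (h1 j)).det

section glob
variable {n q : ℕ} {Γ : Type} [Group Γ] {C : Coc n Γ} {H : Type} [NormedAddCommGroup H]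
  [InnerProductSpace ℝ H] {π : Γ →* (H ≃ₗᵢ[ℝ] H)} {P : PU C} {K : KM C} {θ : HF C q}
  {u v : Γ → C.I → Cm n → H} {δ : ℝ}

/-- continuous on the charts -/
def CO (C : Coc n Γ) (F : C.I → Cm n → ℝ) : Prop := ∀ a, ContinuousOn (F a) (C.Ω a)

theorem CO.add {F G : C.I → Cm n → ℝ} (hF : CO C F) (hG : CO C G) :
    CO C (fun a z => F a z + G a z) := fun a => (hF a).add (hG a)

theorem CO.sub {F G : C.I → Cm n → ℝ} (hF : CO C F) (hG : CO C G) :
    CO C (fun a z => F a z - G a z) := fun a => (hF a).sub (hG a)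

theorem CO.mul {F G : C.I → Cm n → ℝ} (hF : CO C F) (hG : CO C G) :
    CO C (fun a z => F a z * G a z) := fun a => (hF a).mul (hG a)

theorem CO.smul {F : C.I → Cm n → ℝ} (hF : CO C F) (r : ℝ) :
    CO C (fun a z => r * F a z) := fun a => (hF a).const_smul r

theorem co_of {F : C.I → Cm n → ℝ} (h : ∀ a, ∀ z ∈ C.Ω a, ContDiffAt ℝ ∞ (F a) z) : CO C F :=
  fun a z hz => (h a z hz).continuousAt.continuousWithinAt

theorem BI_add (P : PU C) (K : KM C) {F G : C.I → Cm n → ℝ} (hF : CO C F) (hG : CO C G) :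
    BInt P K (fun a z => F a z + G a z) = BInt P K F + BInt P K G := by
  have := BInt_comb' P K hF hG 1 1
  simpa only [one_mul] using this

theorem BI_sub (P : PU C) (K : KM C) {F G : C.I → Cm n → ℝ} (hF : CO C F) (hG : CO C G) :
    BInt P K (fun a z => F a z - G a z) = BInt P K F - BInt P K G := by
  have := BInt_comb' P K hF hG 1 (-1)
  simpa only [one_mul, neg_one_mul, ← sub_eq_add_neg] using this

theorem BI_mono (P : PU C) (K : KM C) {F G : C.I → Cm n → ℝ} (hF : CO C F) (hG : CO C G)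
    (h : ∀ a, ∀ z ∈ C.Ω a, F a z ≤ G a z) : BInt P K F ≤ BInt P K G :=
  BInt_mono' P K hF hG fun a z hz => h a z (V_sub_Ω C a hz)

theorem BI_nn (P : PU C) (K : KM C) {F : C.I → Cm n → ℝ}
    (h : ∀ a, ∀ z ∈ C.Ω a, 0 ≤ F a z) : 0 ≤ BInt P K F :=
  H639.Tw.BInt_nonneg P K fun a z hz => h a z (V_sub_Ω C a hz)

theorem BI_cg (P : PU C) (K : KM C) {F G : C.I → Cm n → ℝ}
    (h : ∀ a, ∀ z ∈ C.Ω a, F a z = G a z) : BInt P K F = BInt P K G :=
  BInt_congr P K fun a z hz => h a z (V_sub_Ω C a hz)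

/-! ### Continuity -/

theorem mcA (K : KM C) (θ : HF C q) (δ : ℝ) {a : C.I} {z : Cm n} (hz : z ∈ C.Ω a) :
    MC ∞ (fun y => AA (K.w a y) (θ.th a y) δ) z :=
  mc_AA (w_mc K hz) (w_det K hz) (th_mc θ hz) δ

theorem mcI (K : KM C) {a : C.I} {z : Cm n} (hz : z ∈ C.Ω a) :
    MC ∞ (fun y => (K.w a y)⁻¹) z := (w_mc K hz).inv (w_det K hz)

theorem co_dD (K : KM C) (θ : HF C q) (δ : ℝ) : CO C (dD K θ δ) := dD_cont K θ δ

theorem co_inner (hu : Sec C π 0 u) (hv : Sec C π 0 v) :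
    CO C (fun a z => ⟪u 1 a z, v 1 a z⟫_ℝ) :=
  co_of fun a z hz => (hu.smooth 1 a z hz).inner ℝ (hv.smooth 1 a z hz)

theorem co_ip (K : KM C) (θ : HF C q) (δ : ℝ) (hu : Sec C π 0 u) (hv : Sec C π 0 v) :
    CO C (fun a z => dD K θ δ a z * ⟪u 1 a z, v 1 a z⟫_ℝ) := (co_dD K θ δ).mul (co_inner hu hv)

theorem co_vW (K : KM C) (θ : HF C q) (δ : ℝ) (hu : Sec C π 0 u) (hv : Sec C π 0 v) :
    CO C (fun a z => vW K θ δ a (u 1 a) (v 1 a) z) :=
  co_of fun a z hz => sm_gM (mcA K θ δ hz) (hu.smooth 1 a z hz) (hv.smooth 1 a z hz)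

theorem co_grH (K : KM C) (hu : Sec C π 0 u) (hv : Sec C π 0 v) :
    CO C (fun a z => grH (K.w a) (u 1 a) (v 1 a) z) :=
  co_of fun a z hz => sm_gM (mcI K hz) (hu.smooth 1 a z hz) (hv.smooth 1 a z hz)

theorem co_hhH (K : KM C) (hu : Sec C π 0 u) (hv : Sec C π 0 v) :
    CO C (fun a z => hhH (K.w a) (u 1 a) (v 1 a) z) :=
  co_of fun a z hz => sm_tM (mcI K hz) (mcI K hz) (hu.smooth 1 a z hz) (hv.smooth 1 a z hz)

theorem sm_lW (K : KM C) (θ : HF C q) (δ : ℝ) (hu : Sec C π 0 u) {a : C.I} {z : Cm n}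
    (hz : z ∈ C.Ω a) : ContDiffAt ℝ ∞ (lW K θ δ a (u 1 a)) z :=
  sm_lM (mcA K θ δ hz) (hu.smooth 1 a z hz)

theorem co_lin (K : KM C) (θ : HF C q) (δ : ℝ) (hu : Sec C π 0 u) (hv : Sec C π 0 v) :
    CO C (fun a z => ⟪lW K θ δ a (u 1 a) z, v 1 a z⟫_ℝ) :=
  co_of fun a z hz => (sm_lW K θ δ hu hz).inner ℝ (hv.smooth 1 a z hz)

theorem co_lsq (K : KM C) (θ : HF C q) (δ : ℝ) (hu : Sec C π 0 u) :
    CO C (fun a z => ‖lW K θ δ a (u 1 a) z‖ ^ 2) := by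
  have h : CO C (fun a z => ⟪lW K θ δ a (u 1 a) z, lW K θ δ a (u 1 a) z⟫_ℝ) :=
    co_of fun a z hz => (sm_lW K θ δ hu hz).inner ℝ (sm_lW K θ δ hu hz)
  intro a
  refine (h a).congr fun z _ => ?_
  exact (real_inner_self_eq_norm_sq _).symm

theorem co_tt (K : KM C) (θ : HF C q) (δ : ℝ) (hu : Sec C π 0 u) :
    CO C (fun a z => tM (AA (K.w a z) (θ.th a z) δ) (AA (K.w a z) (θ.th a z) δ)
      (ddH (u 1 a) z) (ddH (u 1 a) z)) :=
  co_of fun a z hz => sm_tM (mcA K θ δ hz) (mcA K θ δ hz) (hu.smooth 1 a z hz)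
    (hu.smooth 1 a z hz)

theorem co_oW (K : KM C) (θ : HF C q) (hu : Sec C π 0 u) :
    CO C (fun a z => oW K θ a (u 1 a) z) :=
  co_of fun a z hz => sm_tM (mcA K θ 0 hz) (mcI K hz) (hu.smooth 1 a z hz)
    (hu.smooth 1 a z hz)

theorem co_eW (K : KM C) (θ : HF C q) (hu : Sec C π 0 u) :
    CO C (fun a z => eW K θ a (u 1 a) z) :=
  co_of fun a z hz => sm_gM (mc_EE (w_mc K hz) (w_det K hz) (th_mc θ hz))
    (hu.smooth 1 a z hz) (hu.smooth 1 a z hz)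

/-- the Kähler density of a section -/
def qW (K : KM C) (θ : HF C q) (δ : ℝ) (a : C.I) (f : Cm n → H) (z : Cm n) : ℝ :=
  QW (K.w a z) (θ.th a z) δ f z

theorem dD_nn (hA : A.A2Stmt) (K : KM C) (θ : HF C q) (hδ : 0 ≤ δ) {a : C.I} {z : Cm n}
    (hz : z ∈ C.Ω a) : 0 ≤ dD K θ δ a z := dD_nonneg hA K θ hδ hz

theorem co_qW (hA : A.A2Stmt) (K : KM C) (θ : HF C q) (hδ : 0 ≤ δ) (hu : Sec C π 0 u) :
    CO C (fun a z => qW K θ δ a (u 1 a) z) := fun a => by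
  refine cont_quot (c := n + 1) (t := fun z => hhH (K.w a) (u 1 a) (u 1 a) z)
    ((co_lsq K θ δ hu).sub (co_tt K θ δ hu) a) (dD_cont K θ δ a) (co_hhH K hu hu a)
    (fun z hz => dD_nonneg hA K θ hδ hz) fun z hz => ?_
  exact num_absW (θ := θ.th a z) hA (w_pos K hz) hδ (hu.smooth 1 a z hz)

theorem lsq_le (hA : A.A2Stmt) (K : KM C) (θ : HF C q) (hδ : 0 ≤ δ) (hu : Sec C π 0 u) {a : C.I}
    {z : Cm n} (hz : z ∈ C.Ω a) : ‖lW K θ δ a (u 1 a) z‖ ^ 2 ≤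
      n * dD K θ δ a z ^ 2 * hhH (K.w a) (u 1 a) (u 1 a) z := by
  obtain ⟨-, h2, h3⟩ := pt_tr (θ := θ.th a z) hA (w_pos K hz) hδ (hu.smooth 1 a z hz)
  have h4 := mul_le_mul_of_nonneg_left h2 (Nat.cast_nonneg (α := ℝ) n)
  calc _ ≤ _ := h3
    _ ≤ _ := h4
    _ = _ := by rw [hhH_tM, dD]; ring

theorem co_pW (hA : A.A2Stmt) (K : KM C) (θ : HF C q) (hu : Sec C π 0 u) :
    CO C (fun a z => pW K θ a (u 1 a) z) := fun a => by
  refine cont_quot (c := n) (t := fun z => hhH (K.w a) (u 1 a) (u 1 a) z)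
    (co_lsq K θ 0 hu a) (dD_cont K θ 0 a) (co_hhH K hu hu a)
    (fun z hz => dD_nonneg hA K θ le_rfl hz) fun z hz => ?_
  rw [abs_of_nonneg (sq_nonneg _)]
  exact lsq_le hA K θ le_rfl hu hz

/-! ### Dominated convergence -/

theorem BInt_tendsto (P : PU C) (K : KM C) {G : ℕ → C.I → Cm n → ℝ}
    {G' B : C.I → Cm n → ℝ} (hG : ∀ k, CO C (G k)) (hB : CO C B)
    (hle : ∀ k a, ∀ z ∈ C.Ω a, |G k a z| ≤ B a z)
    (hlim : ∀ a, ∀ z ∈ C.Ω a, Tendsto (fun k => G k a z) atTop (𝓝 (G' a z))) :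
    Tendsto (fun k => BInt P K (G k)) atTop (𝓝 (BInt P K G')) := by
  unfold BInt
  refine tendsto_finsetSum _ fun a _ => ?_
  have hV : MeasurableSet (C.V a) := (H913.V.isOpen_V C a).measurableSet
  refine tendsto_integral_of_dominated_convergence
    (fun z => P.χ a a z * B a z * vol (K.w a) z) (fun k => ?_) ?_ (fun k => ?_) ?_
  · exact ((((H913.V.chi_cont P a a).mul (hG k a)).mul (H913.V.vol_cont K a)).mono
      (H913.V.V_sub C a)).aestronglyMeasurable hV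
  · exact H913.V.intV (((H913.V.chi_cont P a a).mul (hB a)).mul (H913.V.vol_cont K a))
  · filter_upwards [ae_restrict_mem hV] with z hz
    have h1 := P.nonneg a a z
    have h2 : 0 ≤ vol (K.w a) z := H913.V.vol_nn K (H913.V.V_sub C a hz)
    rw [Real.norm_eq_abs, abs_mul, abs_mul, abs_of_nonneg h1, abs_of_nonneg h2]
    exact mul_le_mul_of_nonneg_right
      (mul_le_mul_of_nonneg_left (hle k a z (V_sub_Ω C a hz)) h1) h2
  · filter_upwards [ae_restrict_mem hV] with z hz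
    exact ((hlim a z (V_sub_Ω C a hz)).const_mul _).mul_const _

/-! ### The metric `KW` -/

theorem BInt_KW (P : PU C) (hδ : 0 < δ) (G : C.I → Cm n → ℝ) :
    BInt P (KW K θ δ hδ) G = (δ ^ q)⁻¹ * BInt P K fun a z => dD K θ δ a z * G a z := by
  unfold BInt
  rw [Finset.mul_sum]
  refine Finset.sum_congr rfl fun a _ => ?_
  rw [← integral_const_mul]
  refine setIntegral_congr_fun (H913.V.isOpen_V C a).measurableSet fun z hz => ?_
  simp only [vol_KW hδ (H913.V.V_sub C a hz)]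
  ring

theorem BInt_KW' (P : PU C) (hδ : 0 < δ) (G : C.I → Cm n → ℝ) :
    (BInt P K fun a z => dD K θ δ a z * G a z) = δ ^ q * BInt P (KW K θ δ hδ) G := by
  rw [BInt_KW, ← mul_assoc, mul_inv_cancel₀ (pow_pos hδ q).ne', one_mul]

theorem gr_KWW (hA : A.A2Stmt) (hδ : 0 < δ) (f h : Cm n → H) {a : C.I} {z : Cm n}
    (hz : z ∈ C.Ω a) : dD K θ δ a z * grH ((KW K θ δ hδ).w a) f h z = vW K θ δ a f h z := by
  rw [grH_gM, vW, hA.inv_WW _ _ _ (w_pos K hz) hδ, gM_smulM]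
  rfl

theorem lap_KWW (hA : A.A2Stmt) (hδ : 0 < δ) (f : Cm n → H) {a : C.I} {z : Cm n}
    (hz : z ∈ C.Ω a) : dD K θ δ a z • lapH ((KW K θ δ hδ).w a) f z = lW K θ δ a f z := by
  rw [lapH_lM, lW, hA.inv_WW _ _ _ (w_pos K hz) hδ, lM_smulM]
  rfl

theorem hh_KWW (hA : A.A2Stmt) (hδ : 0 < δ) (f : Cm n → H) {a : C.I} {z : Cm n}
    (hz : z ∈ C.Ω a) : dD K θ δ a z * (‖lapH ((KW K θ δ hδ).w a) f z‖ ^ 2 -
      hhH ((KW K θ δ hδ).w a) f f z) = qW K θ δ a f z := by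
  have hD : dD K θ δ a z ≠ 0 := ((hA.DD_nonneg (K.w a z) (θ.th a z) δ (w_pos K hz) hδ.le).2.2 hδ).ne'
  have e1 : lM (AA (K.w a z) (θ.th a z) δ) (ddH f z) =
      dD K θ δ a z • lapH ((KW K θ δ hδ).w a) f z := (lap_KWW hA hδ f hz).symm
  have e2 : tM (AA (K.w a z) (θ.th a z) δ) (AA (K.w a z) (θ.th a z) δ) (ddH f z) (ddH f z) =
      dD K θ δ a z ^ 2 * hhH ((KW K θ δ hδ).w a) f f z := by
    rw [hA.inv_WW _ _ _ (w_pos K hz) hδ, tM_smulM, sq, hhH_tM]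
    rfl
  rw [qW, QW, e1, e2, norm_smul, mul_pow, Real.norm_eq_abs, sq_abs]
  have : DD (K.w a z) (θ.th a z) δ = dD K θ δ a z := rfl
  rw [this]
  field_simp

/-- Integration by parts, `δ > 0`. -/
theorem ibp_posW (hA : A.A2Stmt) (P : PU C) (K : KM C) (θ : HF C q) (hu : Sec C π 0 u)
    (hv : Sec C π 0 v) (hδ : 0 < δ) :
    BInt P K (fun a z => ⟪lW K θ δ a (u 1 a) z, v 1 a z⟫_ℝ) = -enW P K θ δ u v := by
  have h1 := H119.T.ibp P (KW K θ δ hδ) hu hv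
  rw [BInt_KW, BInt_KW, ← mul_neg] at h1
  have h2 := mul_left_cancel₀ (inv_ne_zero (pow_pos hδ q).ne') h1
  have e1 : (BInt P K fun a z => dD K θ δ a z *
      ⟪lapH ((KW K θ δ hδ).w a) (u 1 a) z, v 1 a z⟫_ℝ) =
      BInt P K fun a z => ⟪lW K θ δ a (u 1 a) z, v 1 a z⟫_ℝ :=
    BI_cg P K fun a z hz => by rw [← lap_KWW hA hδ _ hz, real_inner_smul_left]
  have e2 : (BInt P K fun a z => dD K θ δ a z *
      grH ((KW K θ δ hδ).w a) (u 1 a) (v 1 a) z) = enW P K θ δ u v :=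
    BI_cg P K fun a z hz => gr_KWW hA hδ _ _ hz
  rw [e1, e2] at h2
  exact h2

/-- The Kähler identity, `δ > 0`. -/
theorem kahler_posW (hA : A.A2Stmt) (P : PU C) (K : KM C) (θ : HF C q) (hu : Sec C π 0 u)
    (hδ : 0 < δ) : BInt P K (fun a z => qW K θ δ a (u 1 a) z) = 0 := by
  have h1 := H119.T.kahler P (KW K θ δ hδ) hu hu
  have c1 : CO C (fun a z => ⟪lapH ((KW K θ δ hδ).w a) (u 1 a) z,
      lapH ((KW K θ δ hδ).w a) (u 1 a) z⟫_ℝ) := co_of fun a z hz =>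
    (sm_lM (mcI (KW K θ δ hδ) hz) (hu.smooth 1 a z hz)).inner ℝ
      (sm_lM (mcI (KW K θ δ hδ) hz) (hu.smooth 1 a z hz))
  have c2 := co_hhH (KW K θ δ hδ) hu hu
  have h2 : BInt P (KW K θ δ hδ) (fun a z => ⟪lapH ((KW K θ δ hδ).w a) (u 1 a) z,
      lapH ((KW K θ δ hδ).w a) (u 1 a) z⟫_ℝ - hhH ((KW K θ δ hδ).w a) (u 1 a) (u 1 a) z) = 0 := by
    rw [BI_sub _ _ c1 c2, h1, sub_self]
  rw [BInt_KW] at h2
  have h3 := (mul_eq_zero.1 h2).resolve_left (inv_ne_zero (pow_pos hδ q).ne')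
  rw [← h3]
  refine BI_cg P K fun a z hz => ?_
  rw [real_inner_self_eq_norm_sq]
  exact (hh_KWW hA hδ _ hz).symm

/-- bounds, uniform in `δ` -/
theorem ups (hA : A.A2Stmt) (K : KM C) (θ : HF C q) : ∃ c : ℝ, 0 < c ∧ ∀ δ : ℝ, 0 ≤ δ → δ ≤ 1 →
    ∀ a, ∀ z ∈ C.Ω a, dD K θ δ a z ≤ c ∧ dD K θ δ a z ≤ dD K θ 0 a z + c * δ ∧
    ∀ {H : Type} [NormedAddCommGroup H] [InnerProductSpace ℝ H] {f : Cm n → H},
      DifferentiableAt ℝ f z → vW K θ δ a f f z ≤ c * grH (K.w a) f f z ∧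
      vW K θ δ a f f z ≤ vW K θ 0 a f f z + c * δ * grH (K.w a) f f z := by
  obtain ⟨c, hc, h⟩ := pt_up hA q (Lam K θ)
  refine ⟨c, hc, fun δ hδ hδ1 a z hz => ?_⟩
  obtain ⟨h1, h2, h3⟩ := h (K.w a z) (θ.th a z) δ (w_pos K hz) hδ hδ1 (gram_K K θ hz)
  exact ⟨h1, h2, fun {H} _ _ {f} hf => h3 hf⟩

theorem gr_nn (K : KM C) (hu : Sec C π 0 u) {a : C.I} {z : Cm n} (hz : z ∈ C.Ω a) :
    0 ≤ grH (K.w a) (u 1 a) (u 1 a) z :=
  gM_nonneg (w_pos K hz).inv.posSemidef ((hu.smooth 1 a z hz).differentiableAt (by simp))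

theorem hh_nn (K : KM C) (hu : Sec C π 0 u) {a : C.I} {z : Cm n} (hz : z ∈ C.Ω a) :
    0 ≤ hhH (K.w a) (u 1 a) (u 1 a) z :=
  tM_nonneg (w_pos K hz).inv.posSemidef (w_pos K hz).inv.posSemidef (hu.smooth 1 a z hz)

/-- Integration by parts, `δ = 0`. -/
theorem ibp_zeroW (hA : A.A2Stmt) (P : PU C) (K : KM C) (θ : HF C q) (hu : Sec C π 0 u)
    (hv : Sec C π 0 v) :
    BInt P K (fun a z => ⟪lW K θ 0 a (u 1 a) z, v 1 a z⟫_ℝ) = -enW P K θ 0 u v := by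
  obtain ⟨c, hc, hup⟩ := ups hA K θ
  have t1 : Tendsto (fun k => BInt P K fun a z => ⟪lW K θ (dk k) a (u 1 a) z, v 1 a z⟫_ℝ) atTop
      (𝓝 (BInt P K fun a z => ⟪lW K θ 0 a (u 1 a) z, v 1 a z⟫_ℝ)) := by
    refine BInt_tendsto P K (B := fun a z => (n * c ^ 2) * hhH (K.w a) (u 1 a) (u 1 a) z +
      ⟪v 1 a z, v 1 a z⟫_ℝ) (fun k => co_lin K θ _ hu hv)
      (((co_hhH K hu hu).smul _).add (co_inner hv hv)) (fun k a z hz => ?_) fun a z hz => ?_
    · have h1 := lsq_le hA K θ (dk_pos k).le hu hz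
      have h2 := (hup (dk k) (dk_pos k).le (dk_le k) a z hz).1
      have h4 := dD_nn hA K θ (dk_pos k).le hz
      have h5 := hh_nn K hu hz
      have h6 : ‖lW K θ (dk k) a (u 1 a) z‖ ^ 2 ≤ n * c ^ 2 * hhH (K.w a) (u 1 a) (u 1 a) z := by
        refine h1.trans (mul_le_mul_of_nonneg_right ?_ h5)
        exact mul_le_mul_of_nonneg_left (pow_le_pow_left₀ h4 h2 2) (Nat.cast_nonneg n)
      have h7 := abs_real_inner_le_norm (lW K θ (dk k) a (u 1 a) z) (v 1 a z)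
      rw [real_inner_self_eq_norm_sq]
      nlinarith [sq_nonneg (‖lW K θ (dk k) a (u 1 a) z‖ - ‖v 1 a z‖),
        sq_nonneg ‖lW K θ (dk k) a (u 1 a) z‖, sq_nonneg ‖v 1 a z‖]
    · have h1 : Tendsto (fun k => lW K θ (dk k) a (u 1 a) z) atTop (𝓝 (lW K θ 0 a (u 1 a) z)) :=
        ((cont_lM (cont_AA (K.w a z) (θ.th a z)) (ddH (u 1 a) z)).tendsto 0).comp dk_lim
      exact h1.inner tendsto_const_nhds
  have t2 : Tendsto (fun k => -enW P K θ (dk k) u v) atTop (𝓝 (-enW P K θ 0 u v)) := by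
    refine Tendsto.neg ?_
    refine BInt_tendsto P K (B := fun a z => c * (grH (K.w a) (u 1 a) (u 1 a) z +
      grH (K.w a) (v 1 a) (v 1 a) z)) (fun k => co_vW K θ _ hu hv)
      (((co_grH K hu hu).add (co_grH K hv hv)).smul _) (fun k a z hz => ?_) fun a z hz => ?_
    · have du : DifferentiableAt ℝ (u 1 a) z := (hu.smooth 1 a z hz).differentiableAt (by simp)
      have dv : DifferentiableAt ℝ (v 1 a) z := (hv.smooth 1 a z hz).differentiableAt (by simp)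
      have h1 := gM_abs (hA.herm (K.w a z) (θ.th a z) (dk k) (w_pos K hz) (dk_pos k).le) du dv
      have h3 := ((hup (dk k) (dk_pos k).le (dk_le k) a z hz).2.2 du).1
      have h4 := ((hup (dk k) (dk_pos k).le (dk_le k) a z hz).2.2 dv).1
      have h5 := gr_nn K hu hz
      have h6 := gr_nn K hv hz
      have h7 : |vW K θ (dk k) a (u 1 a) (v 1 a) z| ≤
        (vW K θ (dk k) a (u 1 a) (u 1 a) z + vW K θ (dk k) a (v 1 a) (v 1 a) z) / 2 := h1
      refine h7.trans ?_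
      nlinarith
    · exact ((cont_gM (cont_AA (K.w a z) (θ.th a z)) (dH (u 1 a) z) (dH (v 1 a) z)).tendsto
        0).comp dk_lim
  refine tendsto_nhds_unique t1 (t2.congr fun k => (ibp_posW hA P K θ hu hv (dk_pos k)).symm)

/-- The Kähler identity, `δ = 0`. -/
theorem kahler_zeroW (hA : A.A2Stmt) (P : PU C) (K : KM C) (θ : HF C q) (hu : Sec C π 0 u) :
    BInt P K (fun a z => qW K θ 0 a (u 1 a) z) = 0 := by
  obtain ⟨c, hc, hup⟩ := ups hA K θ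
  have t1 : Tendsto (fun k => BInt P K (fun a z => qW K θ (dk k) a (u 1 a) z)) atTop
      (𝓝 (BInt P K (fun a z => qW K θ 0 a (u 1 a) z))) := by
    refine BInt_tendsto P K (B := fun a z => ((n + 1) * c) * hhH (K.w a) (u 1 a) (u 1 a) z)
      (fun k => co_qW hA K θ (dk_pos k).le hu) ((co_hhH K hu hu).smul _)
      (fun k a z hz => ?_) fun a z hz => ?_
    · have h2 := (hup (dk k) (dk_pos k).le (dk_le k) a z hz).1
      refine (QW_abs (θ := θ.th a z) hA (w_pos K hz) (dk_pos k).le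
        (hu.smooth 1 a z hz)).trans ?_
      exact mul_le_mul_of_nonneg_right (mul_le_mul_of_nonneg_left h2 (by positivity))
        (hh_nn K hu hz)
    · exact tendsto_QW hA (w_pos K hz) (hu.smooth 1 a z hz) (fun k => (dk_pos k).le) dk_lim
  refine tendsto_nhds_unique t1 ?_
  have : (fun k => BInt P K (fun a z => qW K θ (dk k) a (u 1 a) z)) = fun _ => 0 :=
    funext fun k => kahler_posW hA P K θ hu (dk_pos k)
  rw [this]
  exact tendsto_const_nhds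

end glob

end Vale.Agent.P284.H402.T
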