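import Vale.Agent.P284.H402.T.OutF
import Vale.Agent.P284.H366.V.Asm
import Vale.Agent.P284.H15.V.Push
import Vale.Agent.P284.H619.PotW

/-!
# P284, theorem T3 (helper402): the limit for kernels without property (T), all `q ≥ 1`
-/

noncomputable section

namespace Vale.Agent.P284.H402.T

open Vale.Agent.P284.H366

/-- **The limit**, `q ≥ 1` -/
theorem limAtT {q : ℕ} (hq : 1 ≤ q) : LimAtT q :=
  limAtT_of hq aOutVStmt H15.V.pushV H619.Pot.potV

end Vale.Agent.P284.H402.T
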