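import Vale.Agent.P284.H402.T.Sel

/-!
# P284, theorem T3 (A'')_W (helper402): conclusion
-/

open scoped Manifold ContDiff Topology Pointwise ComplexConjugate ComplexOrder Matrix InnerProductSpace
open Filter Set Metric MeasureTheory

noncomputable section

namespace Vale.Agent.P284.H402.T

open Vale.Agent.P272.K Vale.Agent.P272.K.C2 Vale.Agent.P284.H248 Vale.Agent.P284.H894
  Vale.Agent.P284.H894.G Vale.Agent.P284.H894.V Vale.Agent.P284.H913.V Vale.Agent.P284.H402.A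
  Vale.Agent.P284.H359.V

open Vale.Agent.P284.H639.V (isOpen_Ω V_sub_Ω O_sub_Ω T_mem_Ω)
open Vale.Agent.P284.H639.T6 (fx fx_sec fx_energy av av_sub_le BInt_one_pos)
open Vale.Agent.P284.H66.S7 (BInt_congr BInt_smul)
open Vale.Agent.P284.H977.T (BInt_mono' BInt_comb' SM ipT LT LF LF_mem LT_val ipT_apply dH_add
  dH_smul ipT_self ipT_symm ipT_nonneg)

open Vale.Agent.P284.H287.T (dH ddH Sec cmp Good exists_good exists_good₂ grH lapH hhH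
  cmp_contDiffAt sg ddH_cmp dH_cmp lapH_iso)

section glob
variable {n q : ℕ} {Γ : Type} [Group Γ] {C : Coc n Γ} {H : Type} [NormedAddCommGroup H]
  [InnerProductSpace ℝ H] {P : PU C} {K : KM C} {θ : HF C q} {π : Γ →* (H ≃ₗᵢ[ℝ] H)}
  {u v : Γ → C.I → Cm n → H} {δ : ℝ}

/-! ### Invariance under the change of charts -/

theorem near1 (hu : Sec C π 0 u) {a b : C.I} {z : Cm n} (hz : z ∈ C.O a b) :
    ∀ᶠ y in 𝓝 z, u 1 a y = (fun x => π (C.κ a b z) (u 1 b x) + 0) (C.T a b y) :=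
  H119.T.sec_near1 hu hz

theorem sm_near (hu : Sec C π 0 u) (g : Γ) {b : C.I} {x : Cm n} (hx : x ∈ C.Ω b) :
    ContDiffAt ℝ ∞ (fun x => π g (u 1 b x) + 0) x :=
  ((π g).contDiff.contDiffAt.comp x (hu.smooth 1 b x hx)).add contDiffAt_const

theorem gM_chart (hu : Sec C π 0 u) (hv : Sec C π 0 v) {a b : C.I} {z : Cm n} (hz : z ∈ C.O a b)
    {M M' : Matrix (Fin n) (Fin n) ℂ}
    (hM : (jac C a b z).map (starRingEnd ℂ) * M * (jac C a b z)ᵀ = M') :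
    gM M (dH (u 1 a) z) (dH (v 1 a) z) =
      gM M' (dH (u 1 b) (C.T a b z)) (dH (v 1 b) (C.T a b z)) := by
  have hT := T_mem_Ω C hz
  rw [gM_chg (T_hol C hz).self_of_nhds hM (hu.smooth 1 a z (O_sub_Ω C hz))
    (hv.smooth 1 a z (O_sub_Ω C hz)) (sm_near hu _ hT) (sm_near hv _ hT) (near1 hu hz)
    (near1 hv hz)]
  have e : ∀ u : Γ → C.I → Cm n → H, dH (fun x => π (C.κ a b z) (u 1 b x) + 0) (C.T a b z) =
      fun p => π (C.κ a b z) (dH (u 1 b) (C.T a b z) p) := fun u => funext fun p =>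
    H287.T.dH_iso _ _ _ _ _
  rw [e, e, gM_iso]

theorem lM_chart (hu : Sec C π 0 u) {a b : C.I} {z : Cm n} (hz : z ∈ C.O a b)
    {M M' : Matrix (Fin n) (Fin n) ℂ}
    (hM : (jac C a b z).map (starRingEnd ℂ) * M * (jac C a b z)ᵀ = M') :
    lM M (ddH (u 1 a) z) = π (C.κ a b z) (lM M' (ddH (u 1 b) (C.T a b z))) := by
  have hT := T_mem_Ω C hz
  rw [lM_chg (T_hol C hz) hM (hu.smooth 1 a z (O_sub_Ω C hz)) (sm_near hu _ hT) (near1 hu hz)]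
  have e : ddH (fun x => π (C.κ a b z) (u 1 b x) + 0) (C.T a b z) =
      fun p r => π (C.κ a b z) (ddH (u 1 b) (C.T a b z) p r) := funext fun p => funext fun r =>
    H287.T.ddH_iso _ _ _ _ _ _
  rw [e, lM_iso]

theorem tM_chart (hu : Sec C π 0 u) {a b : C.I} {z : Cm n} (hz : z ∈ C.O a b)
    {A A' B B' : Matrix (Fin n) (Fin n) ℂ}
    (hA : (jac C a b z).map (starRingEnd ℂ) * A * (jac C a b z)ᵀ = A')
    (hB : (jac C a b z).map (starRingEnd ℂ) * B * (jac C a b z)ᵀ = B') :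
    tM A B (ddH (u 1 a) z) (ddH (u 1 a) z) =
      tM A' B' (ddH (u 1 b) (C.T a b z)) (ddH (u 1 b) (C.T a b z)) := by
  have hT := T_mem_Ω C hz
  rw [tM_chg (T_hol C hz) hA hB (hu.smooth 1 a z (O_sub_Ω C hz)) (sm_near hu _ hT) (near1 hu hz)]
  have e : ddH (fun x => π (C.κ a b z) (u 1 b x) + 0) (C.T a b z) =
      fun p r => π (C.κ a b z) (ddH (u 1 b) (C.T a b z) p r) := funext fun p => funext fun r =>
    H287.T.ddH_iso _ _ _ _ _ _
  rw [e, tM_iso]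

theorem vW_chart (hu : Sec C π 0 u) (hv : Sec C π 0 v) {a b : C.I} {z : Cm n} (hz : z ∈ C.O a b)
    (δ : ℝ) : vW K θ δ a (u 1 a) (v 1 a) z = vW K θ δ b (u 1 b) (v 1 b) (C.T a b z) :=
  gM_chart hu hv hz (AA_inv (inv_K K hz) (θ.change a b z hz) δ)

theorem lW_chart (hu : Sec C π 0 u) {a b : C.I} {z : Cm n} (hz : z ∈ C.O a b) (δ : ℝ) :
    lW K θ δ a (u 1 a) z = π (C.κ a b z) (lW K θ δ b (u 1 b) (C.T a b z)) :=
  lM_chart hu hz (AA_inv (inv_K K hz) (θ.change a b z hz) δ)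

theorem oW_chart (hu : Sec C π 0 u) {a b : C.I} {z : Cm n} (hz : z ∈ C.O a b) :
    oW K θ a (u 1 a) z = oW K θ b (u 1 b) (C.T a b z) :=
  tM_chart hu hz (AA_inv (inv_K K hz) (θ.change a b z hz) 0) (inv_K K hz)

theorem bd_vW (K : KM C) (θ : HF C q) (δ : ℝ) (hu : Sec C π 0 u) (hv : Sec C π 0 v) :
    BD C (fun a z => vW K θ δ a (u 1 a) (v 1 a) z) where
  cont := co_vW K θ δ hu hv
  compat _ _ _ hz _ _ := vW_chart hu hv hz δ

theorem bd_oW (K : KM C) (θ : HF C q) (hu : Sec C π 0 u) :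
    BD C (fun a z => oW K θ a (u 1 a) z) where
  cont := co_oW K θ hu
  compat _ _ _ hz _ _ := oW_chart hu hz

theorem bd_pW (hA : A.A2Stmt) (K : KM C) (θ : HF C q) (hu : Sec C π 0 u) :
    BD C (fun a z => pW K θ a (u 1 a) z) where
  cont := co_pW hA K θ hu
  compat a b z hz _ _ := by
    simp only [pW]
    rw [lW_chart hu hz 0, LinearIsometryEquiv.norm_map, dD_inv K θ 0 hz]

theorem bd_nW (hA : A.A2Stmt) (K : KM C) (θ : HF C q) (hδ : 0 < δ) (hu : Sec C π 0 u) :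
    BD C (fun a z => nW K θ δ hδ a (u 1 a) z) where
  cont := co_nW hA hδ hu
  compat a b z hz _ _ := by
    simp only [nW, tt_eq]
    have h1 : hhH ((KW K θ δ hδ).w a) (u 1 a) (u 1 a) z =
        hhH ((KW K θ δ hδ).w b) (u 1 b) (u 1 b) (C.T a b z) :=
      tM_chart hu hz (inv_K (KW K θ δ hδ) hz) (inv_K (KW K θ δ hδ) hz)
    have hAA := AA_inv (inv_K K hz) (θ.change a b z hz) 0
    rw [h1, dD_inv K θ δ hz, tM_chart hu hz hAA hAA]
    have h2 : DD (K.w a z) (θ.th a z) 0 = DD (K.w b (C.T a b z)) (θ.th b (C.T a b z)) 0 :=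
      DD_inv (inv_K K hz) (θ.change a b z hz) 0
    rw [h2]

theorem bd_smul {F : C.I → Cm n → ℝ} (hF : BD C F) (r : ℝ) : BD C (fun a z => r * F a z) where
  cont a := continuousOn_const.mul (hF.cont a)
  compat a b z hz hza hzb := by rw [hF.compat a b z hz hza hzb]

/-! ### Selection -/

theorem selW (hA : A.A2Stmt) (hM : A2MainStmt) (hq : 0 < q) (P : PU C) (K : KM C) (θ : HF C q)
    {ι : Type} [Fintype ι] (c : ι → Γ) (hc : ∀ i g, c i * g = g * c i) {ε : ℝ} (hε : 0 < ε)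
    (hε1 : ε ≤ 1) : ∃ η : ℝ, 0 < η ∧ ∀ (H : Type) [NormedAddCommGroup H] [InnerProductSpace ℝ H]
      (π : Γ →* (H ≃ₗᵢ[ℝ] H)), EscW P K θ π → ∀ ξ : H, ‖ξ‖ = 1 →
      (∀ g ∈ C.N, ‖π g ξ - ξ‖ ≤ η) → (∀ i, ‖π (c i) ξ - ξ‖ ≤ η) →
    ∃ (δ : ℝ) (hδ : 0 < δ) (v : SM C π) (s : ℝ), δ ≤ 1 ∧ 1 ≤ s ∧ δ * s ≤ 1 / 4000 ∧
      0 < enL P K θ π hδ v v ∧
      ipL P K θ π hδ v v + s ^ 2 * ipL P K θ π hδ (LL K θ π hδ v) (LL K θ π hδ v) +
      ε⁻¹ * (HL P K θ π hδ v v + s * -HL P K θ π hδ (LL K θ π hδ v) v +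
        ∑ i, (ipL P K θ π hδ (TL C π (hc i) v - v) (TL C π (hc i) v - v) +
          s * enL P K θ π hδ (TL C π (hc i) v - v) (TL C π (hc i) v - v))) ≤
      2000 * (s * enL P K θ π hδ v v) := by
  obtain ⟨cm, hcm, hm⟩ := nA_geW hA hM hq K θ
  obtain ⟨cu, hcu, hup⟩ := en_upW hA P K θ
  obtain ⟨η, hη, hst⟩ := start hA P K θ c hc (ε := ε / (cu + 1)) (by positivity)
  refine ⟨η, hη, fun H _ _ π hE ξ hξ h1 h2 => ?_⟩
  obtain ⟨f₀, hpos, hfol⟩ := hst H π ξ hξ h1 h2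
  have hG0 : 0 ≤ BInt P K (fun a z => grH (K.w a) (f₀.1 1 a) (f₀.1 1 a) z) :=
    BI_nn P K fun a z hz => gr_nn K f₀.2 hz
  have hS0 : ∀ i, 0 ≤ BInt P K (fun a z => ‖(TL C π (hc i) f₀ - f₀).1 1 a z‖ ^ 2) := fun i =>
    BI_nn P K fun a z _ => sq_nonneg _
  have hSS : 0 ≤ ∑ i, BInt P K (fun a z => ‖(TL C π (hc i) f₀ - f₀).1 1 a z‖ ^ 2) :=
    Finset.sum_nonneg fun i _ => hS0 i
  have hfol' : cu * (BInt P K (fun a z => grH (K.w a) (f₀.1 1 a) (f₀.1 1 a) z) +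
      ∑ i, BInt P K (fun a z => ‖(TL C π (hc i) f₀ - f₀).1 1 a z‖ ^ 2)) ≤
      ε * ipW P K θ 0 f₀.1 f₀.1 := by
    refine (mul_le_mul_of_nonneg_left hfol hcu.le).trans ?_
    have h2 : cu * (ε / (cu + 1) * ipW P K θ 0 f₀.1 f₀.1) =
        (cu / (cu + 1)) * (ε * ipW P K θ 0 f₀.1 f₀.1) := by
      field_simp
    rw [h2]
    have h4 : cu / (cu + 1) ≤ 1 := by
      rw [div_le_one (by linarith)]
      linarith
    exact mul_le_of_le_one_left (by positivity) h4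
  obtain ⟨J, d0, hd0, hwj⟩ := wjW hA P K θ π hE f₀ hpos
  set δ : ℝ := min (min d0 1) (1 / (4000 * 2 ^ J)) with hδdef
  have hδ : 0 < δ := lt_min (lt_min hd0 one_pos) (by positivity)
  have hδ1 : δ ≤ 1 := (min_le_left _ _).trans (min_le_right _ _)
  have hδd : δ ≤ d0 := (min_le_left _ _).trans (min_le_left _ _)
  have hδJ : δ * 2 ^ J ≤ 1 / 4000 := by
    have h1 : δ ≤ 1 / (4000 * 2 ^ J) := min_le_right _ _
    have h2 : (0 : ℝ) < 2 ^ J := by positivity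
    calc δ * 2 ^ J ≤ 1 / (4000 * 2 ^ J) * 2 ^ J := mul_le_mul_of_nonneg_right h1 h2.le
      _ = 1 / 4000 := by field_simp
  obtain ⟨hup1, hup2, hup3⟩ := hup H π δ hδ hδ1 f₀
  have hip0 : ipW P K θ 0 f₀.1 f₀.1 ≤ ipW P K θ δ f₀.1 f₀.1 := ip_zero_leW hA hδ.le f₀.2
  have hGle : cu * BInt P K (fun a z => grH (K.w a) (f₀.1 1 a) (f₀.1 1 a) z) ≤
      ε * ipW P K θ δ f₀.1 f₀.1 := by
    have h1 := mul_nonneg hcu.le hSS
    have h2 := mul_le_mul_of_nonneg_left hip0 hε.le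
    rw [mul_add] at hfol'
    linarith
  have key := H501.a1T (V := SM C π) (fun i => TL C π (hc i))
    (ipL P K θ π hδ) (enL P K θ π hδ) (HL P K θ π hδ) (LL K θ π hδ)
    (fun f => -HL P K θ π hδ (LL K θ π hδ f) f)
    (fun i f => TL_LL (hc i) hδ f)
    (fun i f => ip_TL (hc i) hδ f)
    (fun f h => by rw [ipL_apply, ipL_apply, ip_symmW])
    (fun f => by rw [ipL_apply]; exact ip_nnW hA hδ.le _)
    (fun f h => by rw [enL_eq hA, enL_eq hA, en_symmW hA hδ.le])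
    (fun f => by rw [enL_eq hA]; exact en_nnW hA hδ.le f.2)
    (H_symmW hA hδ) (H_nnW hA hδ) (ip_LW hδ)
    (fun f => (diss_factsW hA hcm hδ f (hm H π δ hδ hδ1 f.1 f.2)).2.1)
    (fun f => le_rfl) (H_bdW hA P K θ π hδ)
    (fun l hl f ρ hρ => dens_BW P K θ π hδ hA l hl f ρ hρ)
    J f₀ ε hε hε1 (by rw [ipL_apply]; exact lt_of_lt_of_le hpos hip0)
    (by
      rw [enL_eq hA, ipL_apply]
      exact hup2.trans hGle)
    (by
      have h2 : ∑ i, ipL P K θ π hδ (TL C π (hc i) f₀ - f₀) (TL C π (hc i) f₀ - f₀) ≤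
          cu * ∑ i, BInt P K (fun a z => ‖(TL C π (hc i) f₀ - f₀).1 1 a z‖ ^ 2) := by
        rw [Finset.mul_sum]
        refine Finset.sum_le_sum fun i _ => ?_
        rw [ipL_apply]
        exact (hup H π δ hδ hδ1 (TL C π (hc i) f₀ - f₀)).1
      have h4 : ε * ipW P K θ 0 f₀.1 f₀.1 ≤ ε * ipL P K θ π hδ f₀ f₀ := by
        rw [ipL_apply]
        exact mul_le_mul_of_nonneg_left hip0 hε.le
      rw [mul_add] at hfol'
      linarith)
    (fun b hb1 hb2 => by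
      rw [ipL_apply] at hb1
      rw [ipL_apply] at hb1
      rw [enL_eq hA, ipL_apply] at hb2
      rw [ipL_apply, ipL_apply]
      exact hwj δ hδ hδd b hb1 hb2)
  obtain ⟨v, s, hs1, hsJ, hev, hmain⟩ := key
  exact ⟨δ, hδ, v, s, hδ1, hs1, (mul_le_mul_of_nonneg_left hsJ hδ.le).trans hδJ, hev, hmain⟩

/-- **(A'')_W** for fixed data -/
theorem app_ofW (hA : A.A2Stmt) (hM : A2MainStmt) (hq : 0 < q) (P : PU C) (K : KM C)
    (θ : HF C q) {ι : Type} [Fintype ι] (c : ι → Γ) (hc : ∀ i g, c i * g = g * c i) :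
    ∃ c₀ : ℝ, 0 < c₀ ∧ ∀ ε : ℝ, 0 < ε → ∃ η : ℝ, 0 < η ∧
      ∀ (H : Type) [NormedAddCommGroup H] [InnerProductSpace ℝ H]
        (π : Γ →* (H ≃ₗᵢ[ℝ] H)), EscW P K θ π → ∀ ξ : H, ‖ξ‖ = 1 →
        (∀ g ∈ C.N, ‖π g ξ - ξ‖ ≤ η) → (∀ i, ‖π (c i) ξ - ξ‖ ≤ η) →
        AppW P K θ π c c₀ ε := by
  obtain ⟨cm, hcm, hm⟩ := nA_geW hA hM hq K θ
  refine ⟨4000 * (3 + 2 * cm⁻¹), by positivity, fun ε₀ hε₀ => ?_⟩
  have hε : 0 < min ε₀ 1 := lt_min hε₀ one_pos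
  obtain ⟨η, hη, hsel⟩ := selW hA hM hq P K θ c hc hε (min_le_right ε₀ 1)
  refine ⟨η, hη, fun H _ _ π hE ξ hξ h1 h2 => ?_⟩
  obtain ⟨δ, hδ, v, s, hδ1, hs1, hδs, hev, hmain⟩ := hsel H π hE ξ hξ h1 h2
  have hmv := hm H π δ hδ hδ1 v.1 v.2
  obtain ⟨hn0, hM0, hnM, hpA⟩ := diss_factsW (P := P) hA hcm hδ v hmv
  have hcmi : 0 < cm⁻¹ := inv_pos.2 hcm
  have hIm : BInt P K (fun a z => cm⁻¹ * nW K θ δ hδ a (v.1 1 a) z) ≤
      cm⁻¹ * (2 * -HL P K θ π hδ (LL K θ π hδ v) v) := by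
    rw [BInt_smul]
    exact mul_le_mul_of_nonneg_left hnM hcmi.le
  have hIm0 : 0 ≤ BInt P K (fun a z => cm⁻¹ * nW K θ δ hδ a (v.1 1 a) z) := by
    rw [BInt_smul]
    exact mul_nonneg hcmi.le hn0
  have hen0 : ∀ i, 0 ≤ enW P K θ 0 (trW π (c i) v.1) (trW π (c i) v.1) := fun i =>
    en_nnW hA le_rfl (TL C π (hc i) v - v).2
  have henle : ∀ i, enW P K θ 0 (trW π (c i) v.1) (trW π (c i) v.1) ≤
      enL P K θ π hδ (TL C π (hc i) v - v) (TL C π (hc i) v - v) := fun i => by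
    have h1 := en_zero_leW (P := P) (K := K) (θ := θ) hA hδ.le (TL C π (hc i) v - v).2
    have h2 := int_eW_nn (P := P) (K := K) (θ := θ) hA (TL C π (hc i) v - v).2
    have h4 := mul_nonneg hδ.le h2
    rw [enL_eq hA]
    rw [TL_sub] at h1 h2 h4 ⊢
    linarith
  have hsum : ∑ i, s * enW P K θ 0 (trW π (c i) v.1) (trW π (c i) v.1) ≤
      ∑ i, (ipL P K θ π hδ (TL C π (hc i) v - v) (TL C π (hc i) v - v) +
        s * enL P K θ π hδ (TL C π (hc i) v - v) (TL C π (hc i) v - v)) :=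
    Finset.sum_le_sum fun i _ => by
      have h1 := mul_le_mul_of_nonneg_left (henle i) (by linarith : (0 : ℝ) ≤ s)
      have h2 : 0 ≤ ipL P K θ π hδ (TL C π (hc i) v - v) (TL C π (hc i) v - v) := by
        rw [ipL_apply]; exact ip_nnW hA hδ.le _
      linarith
  have hi0 : ipW P K θ 0 v.1 v.1 ≤ ipL P K θ π hδ v v := by
    rw [ipL_apply]; exact ip_zero_leW hA hδ.le v.2
  have hipn : ∀ w : SM C π, 0 ≤ ipL P K θ π hδ w w := fun w => by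
    rw [ipL_apply]; exact ip_nnW hA hδ.le _
  have hfin := num_fin (i0 := ipW P K θ 0 v.1 v.1)
    (pA := BInt P K (fun a z => pW K θ a (v.1 1 a) z))
    (eA := BInt P K (fun a z => eW K θ a (v.1 1 a) z))
    (Im := BInt P K (fun a z => cm⁻¹ * nW K θ δ hδ a (v.1 1 a) z))
    (en0 := enW P K θ 0 v.1 v.1) (e0i := ε₀⁻¹) (cmi := cm⁻¹)
    hi0 hpA hδs hδ hs1 hM0
    (H_geW (P := P) (K := K) (θ := θ) hA hδ v) hIm hsum
    (hipn v) (hipn (LL K θ π hδ v))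
    (int_eW_nn hA v.2) hIm0
    (Finset.sum_nonneg fun i _ => mul_nonneg (by linarith) (hen0 i)) hcmi
    (by
      rw [HL_apply hA, ← mul_assoc, mul_inv_cancel₀ hδ.ne', one_mul, enL_eq hA]
      ring) hev (inv_anti₀ hε (min_le_left _ _)) ((one_le_inv₀ hε).2 (min_le_right _ _)) hmain
  refine ⟨v.1, s, fun a z => cm⁻¹ * nW K θ δ hδ a (v.1 1 a) z, v.2, hs1, hfin.1,
    bd_smul (bd_nW hA K θ hδ v.2) _, fun a z hz => ?_, hfin.2⟩
  have h1 := hmv a z hz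
  refine ⟨h1.1, h1.2.1, ?_⟩
  show _ ≤ cm⁻¹ * nW K θ δ hδ a (v.1 1 a) z
  rw [← div_eq_inv_mul, le_div_iff₀ hcm]
  linarith [h1.2.2]

end glob

/-- **(A'')_W** -/
theorem appWStmt : AppWStmt := fun _ _ hq _ _ _ P K θ _ _ c hc => by
  obtain ⟨c₀, hc₀, h⟩ := app_ofW H279.a2Stmt a2MainStmt hq P K θ c hc
  refine ⟨c₀, hc₀, fun ε hε => ?_⟩
  obtain ⟨η, hη, h'⟩ := h ε hε
  exact ⟨η, hη, fun H _ _ _ π => h' H π⟩

end Vale.Agent.P284.H402.T
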