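import Vale.Agent.P284.H402.T.Form
import Vale.Agent.P284.H730.T3
import Vale.Agent.P284.H639.T6
import Vale.Agent.P284.H977.T.T8

/-!
# P284, theorem T3 (A'')_W (helper402): assembly
-/

open scoped Manifold ContDiff Topology Pointwise ComplexConjugate ComplexOrder Matrix InnerProductSpace
open Filter Set Metric MeasureTheory

noncomputable section

namespace Vale.Agent.P284.H402.T

open Vale.Agent.P272.K Vale.Agent.P272.K.C2 Vale.Agent.P284.H248 Vale.Agent.P284.H894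
  Vale.Agent.P284.H894.G Vale.Agent.P284.H894.V Vale.Agent.P284.H913.V Vale.Agent.P284.H402.A
  Vale.Agent.P284.H359.V

open Vale.Agent.P284.H639.V (isOpen_Ω V_sub_Ω O_sub_Ω T_mem_Ω)
open Vale.Agent.P284.H66.S7 (BInt_congr BInt_smul)
open Vale.Agent.P284.H977.T (BInt_mono' BInt_comb' SM ipT LT LF LF_mem LT_val ipT_apply dH_add
  dH_smul ipT_self ipT_symm ipT_nonneg)

open Vale.Agent.P284.H287.T (dH ddH Sec cmp Good exists_good exists_good₂ grH lapH hhH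
  cmp_contDiffAt sg ddH_cmp dH_cmp lapH_iso)

section glob
variable {n q : ℕ} {Γ : Type} [Group Γ] {C : Coc n Γ} {H : Type} [NormedAddCommGroup H]
  [InnerProductSpace ℝ H] {P : PU C} {K : KM C} {θ : HF C q} {π : Γ →* (H ≃ₗᵢ[ℝ] H)}
  {u v : Γ → C.I → Cm n → H} {δ : ℝ}

/-! ### Domination by the dissipation density -/

theorem tt_eq (f : Cm n → H) (a : C.I) (z : Cm n) : pW K θ a f z - qW K θ 0 a f z =
    tM (AA (K.w a z) (θ.th a z) 0) (AA (K.w a z) (θ.th a z) 0) (ddH f z) (ddH f z) /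
      DD (K.w a z) (θ.th a z) 0 := by
  rw [pW, qW, QW, lW, dD]
  ring

theorem nA_geW (hA : A.A2Stmt) (hM : A2MainStmt) (hq : 0 < q) (K : KM C) (θ : HF C q) :
    ∃ c : ℝ, 0 < c ∧ ∀ (H : Type) [NormedAddCommGroup H] [InnerProductSpace ℝ H]
      (π : Γ →* (H ≃ₗᵢ[ℝ] H)) (δ : ℝ) (hδ : 0 < δ), δ ≤ 1 → ∀ u, Sec C π 0 u → ∀ a, ∀ z ∈ C.Ω a,
      0 ≤ oW K θ a (u 1 a) z ∧ 0 ≤ bW K θ a (u 1 a) z ∧
      c * (oW K θ a (u 1 a) z + bW K θ a (u 1 a) z) ≤ nW K θ δ hδ a (u 1 a) z := by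
  obtain ⟨c, hc, hm⟩ := pt_main hM hq (Lam K θ)
  refine ⟨c, hc, fun H _ _ π δ hδ hδ1 u hu a z hz => ⟨?_, ?_, ?_⟩⟩
  · exact tM_nonneg (hA.herm _ _ 0 (w_pos K hz) le_rfl) (w_pos K hz).inv.posSemidef
      (hu.smooth 1 a z hz)
  · exact tM_nonneg (hA.herm _ _ 0 (w_pos K hz) le_rfl) (BB_psd (w_pos K hz) _)
      (hu.smooth 1 a z hz)
  · have h1 := hm (K.w a z) (θ.th a z) δ (w_pos K hz) hδ hδ1 (hu.smooth 1 a z hz)
      (gram_K K θ hz)
    rw [nW, tt_eq, ← div_eq_inv_mul, le_div_iff₀ hδ]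
    have h3 : dD K θ δ a z * hhH ((KW K θ δ hδ).w a) (u 1 a) (u 1 a) z =
        DD (K.w a z) (θ.th a z) δ * tM (WW (K.w a z) (θ.th a z) δ)⁻¹
          (WW (K.w a z) (θ.th a z) δ)⁻¹ (ddH (u 1 a) z) (ddH (u 1 a) z) := rfl
    have h4 : c * (oW K θ a (u 1 a) z + bW K θ a (u 1 a) z) * δ = c * δ *
        (tM (AA (K.w a z) (θ.th a z) 0) (K.w a z)⁻¹ (ddH (u 1 a) z) (ddH (u 1 a) z) +
          tM (AA (K.w a z) (θ.th a z) 0) (BB (K.w a z) (θ.th a z)) (ddH (u 1 a) z)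
            (ddH (u 1 a) z)) := by
      rw [oW, bW]; ring
    rw [h4, h3]
    linarith

/-- nonnegativity of the dissipation -/
theorem diss_factsW (hA : A.A2Stmt) {cm δ : ℝ} (hcm : 0 < cm) (hδ : 0 < δ) (s : SM C π)
    (hm : ∀ a, ∀ z ∈ C.Ω a, 0 ≤ oW K θ a (s.1 1 a) z ∧ 0 ≤ bW K θ a (s.1 1 a) z ∧
      cm * (oW K θ a (s.1 1 a) z + bW K θ a (s.1 1 a) z) ≤ nW K θ δ hδ a (s.1 1 a) z) :
    0 ≤ BInt P K (fun a z => nW K θ δ hδ a (s.1 1 a) z) ∧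
    0 ≤ -HL P K θ π hδ (LL K θ π hδ s) s ∧
    BInt P K (fun a z => nW K θ δ hδ a (s.1 1 a) z) ≤ 2 * -HL P K θ π hδ (LL K θ π hδ s) s ∧
    BInt P K (fun a z => pW K θ a (s.1 1 a) z) ≤
      2 * ipL P K θ π hδ (LL K θ π hδ s) (LL K θ π hδ s) +
        4 * δ * -HL P K θ π hδ (LL K θ π hδ s) s := by
  have h1 := H_dissW (P := P) (K := K) (θ := θ) hA hδ s
  have h2 : 0 ≤ BInt P K (fun a z => rW K θ δ hδ a (s.1 1 a) z) :=
    BI_nn P K fun a z hz => (pt_mainW hA hδ _ hz).1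
  have h4 : 0 ≤ BInt P K (fun a z => nW K θ δ hδ a (s.1 1 a) z) := BI_nn P K fun a z hz => by
    have h5 := hm a z hz
    exact (mul_nonneg hcm.le (add_nonneg h5.1 h5.2.1)).trans h5.2.2
  set M : ℝ := -HL P K θ π hδ (LL K θ π hδ s) s with hM
  have h6 := mul_nonneg hδ.le h4
  have h7 : 0 ≤ δ * M := by linarith
  have h8 : 0 ≤ M := nonneg_of_mul_nonneg_right h7 hδ
  have h9 : BInt P K (fun a z => nW K θ δ hδ a (s.1 1 a) z) ≤ 2 * M := by
    have h10 : δ * BInt P K (fun a z => nW K θ δ hδ a (s.1 1 a) z) ≤ δ * (2 * M) := by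
      have : δ * (2 * M) = 2 * (δ * M) := by ring
      rw [this]
      linarith
    exact le_of_mul_le_mul_left h10 hδ
  have hrM : BInt P K (fun a z => rW K θ δ hδ a (s.1 1 a) z) ≤ 2 * δ * M := by
    have : 2 * δ * M = 2 * (δ * M) := by ring
    rw [this]
    linarith
  refine ⟨h4, h8, h9, ?_⟩
  have F1 := co_ip K θ δ (LL K θ π hδ s).2 (LL K θ π hδ s).2
  have F2 := co_rW (K := K) (θ := θ) hA hδ s.2
  have e : 2 * ipL P K θ π hδ (LL K θ π hδ s) (LL K θ π hδ s) +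
      2 * BInt P K (fun a z => rW K θ δ hδ a (s.1 1 a) z) = BInt P K (fun a z =>
        2 * (dD K θ δ a z * ⟪(LL K θ π hδ s).1 1 a z, (LL K θ π hδ s).1 1 a z⟫_ℝ) +
        2 * rW K θ δ hδ a (s.1 1 a) z) := by
    rw [BI_add P K (F1.smul 2) (F2.smul 2), BInt_smul, BInt_smul, ipL_apply]
    rfl
  have h11 : BInt P K (fun a z => pW K θ a (s.1 1 a) z) ≤
      2 * ipL P K θ π hδ (LL K θ π hδ s) (LL K θ π hδ s) +
      2 * BInt P K (fun a z => rW K θ δ hδ a (s.1 1 a) z) := by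
    rw [e]
    refine BI_mono P K (co_pW hA K θ s.2) ((F1.smul 2).add (F2.smul 2)) fun a z hz => ?_
    have h2 := (pt_mainW (K := K) (θ := θ) hA hδ (s.1 1 a) hz).2.1
    rw [LL_ev hδ s hz, real_inner_self_eq_norm_sq]
    exact h2
  linarith

/-! ### Density -/

theorem dens_BW (P : PU C) (K : KM C) (θ : HF C q) (π : Γ →* (H ≃ₗᵢ[ℝ] H))
    {δ : ℝ} (hδ : 0 < δ) (hA : A.A2Stmt) (l : ℝ) (hl : 0 < l) (f : SM C π) (η : ℝ) (hη : 0 < η) :
    ∃ v : SM C π, ipL P K θ π hδ (l • v - LL K θ π hδ v - f)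
      (l • v - LL K θ π hδ v - f) < η := by
  obtain ⟨l₀, hl₀, h⟩ := H730.T.densH P (KW K θ δ hδ)
  have hs : ∀ f h : SM C π, ipL P K θ π hδ f h = ipL P K θ π hδ h f := fun f h => by
    rw [ipL_apply, ipL_apply, ip_symmW]
  have hp : ∀ f : SM C π, 0 ≤ ipL P K θ π hδ f f := fun f => by
    rw [ipL_apply]; exact ip_nnW hA hδ.le _
  have hD : Abs.D (ipL P K θ π hδ) (LL K θ π hδ) (max l l₀) := by
    refine Abs.D_of fun f ρ hρ => ?_
    obtain ⟨v, hv, hlt⟩ := h H π _ (le_max_right l l₀) f.1 f.2 (ρ / δ ^ q) (by positivity)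
    refine ⟨⟨v, hv⟩, ?_⟩
    have h1 : ipL P K θ π hδ ((max l l₀) • (⟨v, hv⟩ : SM C π) - LL K θ π hδ ⟨v, hv⟩ - f)
        ((max l l₀) • (⟨v, hv⟩ : SM C π) - LL K θ π hδ ⟨v, hv⟩ - f) =
        δ ^ q * BInt P (KW K θ δ hδ) (fun a z => ‖(max l l₀) • v 1 a z -
          lapH ((KW K θ δ hδ).w a) (v 1 a) z - f.1 1 a z‖ ^ 2) := by
      have e0 : ∀ s : SM C π, ipL P K θ π hδ s s = δ ^ q * ipT P (KW K θ δ hδ) π s s :=
        fun s => rfl
      rw [e0, ipT_self]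
      congr 1
      refine BI_cg P _ fun a z hz => ?_
      congr 2
      show (max l l₀) • v 1 a z - LF (KW K θ δ hδ) v 1 a z - f.1 1 a z = _
      rw [LF_mem hz]
    rw [h1]
    calc _ < δ ^ q * (ρ / δ ^ q) := mul_lt_mul_of_pos_left hlt (pow_pos hδ q)
      _ = ρ := by
        have := (pow_pos hδ q).ne'
        field_simp
  have hD' : Abs.D (ipL P K θ π hδ) (LL K θ π hδ) l :=
    Abs.D_step (en := enL P K θ π hδ) hs hp
      (fun f => by rw [enL_eq hA]; exact en_nnW hA hδ.le f.2)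
      (fun f h => ip_LW hδ f h) hl (le_max_left l l₀) hD
  obtain ⟨v, hv⟩ := hD' f (Real.sqrt η) (Real.sqrt_pos.2 hη)
  refine ⟨v, ?_⟩
  have h1 := (Real.sqrt_lt_sqrt_iff (hp _)).1 hv
  exact h1

end glob

end Vale.Agent.P284.H402.T
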