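import Vale.Agent.P284.H402.T.Glob

/-!
# P284, theorem T3 (A'')_W (helper402): bilinear forms, dissipativity, bounds
-/

open scoped Manifold ContDiff Topology Pointwise ComplexConjugate ComplexOrder Matrix InnerProductSpace
open Filter Set Metric MeasureTheory

noncomputable section

namespace Vale.Agent.P284.H402.T

open Vale.Agent.P272.K Vale.Agent.P272.K.C2 Vale.Agent.P284.H248 Vale.Agent.P284.H894
  Vale.Agent.P284.H894.G Vale.Agent.P284.H894.V Vale.Agent.P284.H913.V Vale.Agent.P284.H402.A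
  Vale.Agent.P284.H359.V

open Vale.Agent.P284.H639.V (isOpen_Ω V_sub_Ω O_sub_Ω T_mem_Ω)
open Vale.Agent.P284.H66.S7 (BInt_congr BInt_smul)
open Vale.Agent.P284.H977.T (BInt_mono' BInt_comb' SM ipT LT LF LF_mem LT_val ipT_apply dH_add
  dH_smul)

open Vale.Agent.P284.H287.T (dH ddH Sec cmp Good exists_good exists_good₂ grH lapH hhH
  cmp_contDiffAt sg ddH_cmp dH_cmp)

section glob
variable {n q : ℕ} {Γ : Type} [Group Γ] {C : Coc n Γ} {H : Type} [NormedAddCommGroup H]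
  [InnerProductSpace ℝ H] {P : PU C} {K : KM C} {θ : HF C q} {π : Γ →* (H ≃ₗᵢ[ℝ] H)}
  {u v : Γ → C.I → Cm n → H} {δ : ℝ}

variable (P K θ π) in
/-- `ip_δ` -/
def ipL (hδ : 0 < δ) : SM C π →ₗ[ℝ] SM C π →ₗ[ℝ] ℝ := δ ^ q • ipT P (KW K θ δ hδ) π

theorem ipL_apply (hδ : 0 < δ) (s v : SM C π) :
    ipL P K θ π hδ s v = ipW P K θ δ s.1 v.1 := by
  rw [ipW, BInt_KW' P hδ]
  rfl

variable (K θ π) in
/-- the Laplacian of `KW` -/
def LL (hδ : 0 < δ) : SM C π →ₗ[ℝ] SM C π := LT (KW K θ δ hδ) π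

theorem LL_ev (hδ : 0 < δ) (s : SM C π) {a : C.I} {z : Cm n} (hz : z ∈ C.Ω a) :
    (LL K θ π hδ s).1 1 a z = lapH ((KW K θ δ hδ).w a) (s.1 1 a) z := LF_mem hz

variable (P K θ π) in
/-- `en_δ` -/
def enL (hδ : 0 < δ) : SM C π →ₗ[ℝ] SM C π →ₗ[ℝ] ℝ := -((ipL P K θ π hδ).comp (LL K θ π hδ))

theorem enL_eq (hA : A.A2Stmt) (hδ : 0 < δ) (s v : SM C π) :
    enL P K θ π hδ s v = enW P K θ δ s.1 v.1 := by
  have h1 : enL P K θ π hδ s v = -ipL P K θ π hδ (LL K θ π hδ s) v := rfl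
  rw [h1, ipL_apply, ← neg_eq_iff_eq_neg.2 (ibp_posW hA P K θ s.2 v.2 hδ), neg_inj]
  refine BI_cg P K fun a z hz => ?_
  rw [LL_ev hδ s hz, ← real_inner_smul_left, lap_KWW hA hδ _ hz]

variable (P K θ π) in
/-- `V_0` -/
def V0L : SM C π →ₗ[ℝ] SM C π →ₗ[ℝ] ℝ :=
  LinearMap.mk₂ ℝ (fun s v => enW P K θ 0 s.1 v.1)
    (by
      intro s s' v
      rw [enW, enW, enW, ← BI_add P K (co_vW K θ 0 s.2 v.2) (co_vW K θ 0 s'.2 v.2)]
      refine BI_cg P K fun a z hz => ?_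
      have e : dH ((s + s' : SM C π).1 1 a) z = fun b => dH (s.1 1 a) z b + dH (s'.1 1 a) z b :=
        funext fun b => dH_add (s.2.smooth 1 a z hz) (s'.2.smooth 1 a z hz) b
      rw [vW, e, gM_add_left]
      rfl)
    (by
      intro c s v
      rw [enW, enW, smul_eq_mul, ← BInt_smul]
      refine BI_cg P K fun a z hz => ?_
      have e : dH ((c • s : SM C π).1 1 a) z = fun b => c • dH (s.1 1 a) z b :=
        funext fun b => dH_smul c (s.2.smooth 1 a z hz) b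
      rw [vW, e, gM_smul_left]
      rfl)
    (by
      intro s v v'
      rw [enW, enW, enW, ← BI_add P K (co_vW K θ 0 s.2 v.2) (co_vW K θ 0 s.2 v'.2)]
      refine BI_cg P K fun a z hz => ?_
      have e : dH ((v + v' : SM C π).1 1 a) z = fun b => dH (v.1 1 a) z b + dH (v'.1 1 a) z b :=
        funext fun b => dH_add (v.2.smooth 1 a z hz) (v'.2.smooth 1 a z hz) b
      rw [vW, e, gM_add_right]
      rfl)
    (by
      intro c s v
      rw [enW, enW, smul_eq_mul, ← BInt_smul]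
      refine BI_cg P K fun a z hz => ?_
      have e : dH ((c • v : SM C π).1 1 a) z = fun b => c • dH (v.1 1 a) z b :=
        funext fun b => dH_smul c (v.2.smooth 1 a z hz) b
      rw [vW, e, gM_smul_right]
      rfl)

variable (P K θ π) in
/-- `H = δ⁻¹ (V_δ - V_0)` -/
def HL (hδ : 0 < δ) : SM C π →ₗ[ℝ] SM C π →ₗ[ℝ] ℝ := δ⁻¹ • (enL P K θ π hδ - V0L P K θ π)

theorem HL_apply (hA : A.A2Stmt) (hδ : 0 < δ) (s v : SM C π) :
    HL P K θ π hδ s v = δ⁻¹ * (enW P K θ δ s.1 v.1 - enW P K θ 0 s.1 v.1) := by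
  rw [← enL_eq hA hδ]
  rfl

/-! ### Elementary properties -/

theorem ip_symmW (u v : Γ → C.I → Cm n → H) : ipW P K θ δ u v = ipW P K θ δ v u :=
  BI_cg P K fun a z _ => by rw [real_inner_comm]

theorem ip_nnW (hA : A.A2Stmt) (hδ : 0 ≤ δ) (u : Γ → C.I → Cm n → H) :
    0 ≤ ipW P K θ δ u u :=
  BI_nn P K fun _ _ hz => mul_nonneg (dD_nn hA K θ hδ hz) real_inner_self_nonneg

theorem en_symmW (hA : A.A2Stmt) (hδ : 0 ≤ δ) (u v : Γ → C.I → Cm n → H) :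
    enW P K θ δ u v = enW P K θ δ v u :=
  BI_cg P K fun _ _ hz => gM_symm (hA.herm _ _ _ (w_pos K hz) hδ).isHermitian _ _

theorem diffS (hu : Sec C π 0 u) {a : C.I} {z : Cm n} (hz : z ∈ C.Ω a) :
    DifferentiableAt ℝ (u 1 a) z := (hu.smooth 1 a z hz).differentiableAt (by simp)

theorem vW_nn (hA : A.A2Stmt) (hδ : 0 ≤ δ) (hu : Sec C π 0 u) {a : C.I} {z : Cm n}
    (hz : z ∈ C.Ω a) : 0 ≤ vW K θ δ a (u 1 a) (u 1 a) z :=
  gM_nonneg (hA.herm _ _ _ (w_pos K hz) hδ) (diffS hu hz)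

theorem en_nnW (hA : A.A2Stmt) (hδ : 0 ≤ δ) (hu : Sec C π 0 u) : 0 ≤ enW P K θ δ u u :=
  BI_nn P K fun _ _ hz => vW_nn hA hδ hu hz

theorem ip_zero_leW (hA : A.A2Stmt) (hδ : 0 ≤ δ) (hu : Sec C π 0 u) :
    ipW P K θ 0 u u ≤ ipW P K θ δ u u :=
  BI_mono P K (co_ip K θ 0 hu hu) (co_ip K θ δ hu hu) fun _ _ hz =>
    mul_le_mul_of_nonneg_right (hA.DD_nonneg _ _ _ (w_pos K hz) hδ).2.1 real_inner_self_nonneg

theorem eW_nn (hA : A.A2Stmt) (hu : Sec C π 0 u) {a : C.I} {z : Cm n}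
    (hz : z ∈ C.Ω a) : 0 ≤ eW K θ a (u 1 a) z :=
  (pt_low (θ := θ.th a z) hA (w_pos K hz) le_rfl (diffS hu hz)).1

theorem int_eW_nn (hA : A.A2Stmt) (hu : Sec C π 0 u) :
    0 ≤ BInt P K (fun a z => eW K θ a (u 1 a) z) := BI_nn P K fun _ _ hz => eW_nn hA hu hz

theorem en_zero_leW (hA : A.A2Stmt) (hδ : 0 ≤ δ) (hu : Sec C π 0 u) :
    enW P K θ 0 u u + δ * BInt P K (fun a z => eW K θ a (u 1 a) z) ≤ enW P K θ δ u u := by
  rw [← BInt_smul, enW, ← BI_add P K (co_vW K θ 0 hu hu) ((co_eW K θ hu).smul δ)]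
  exact BI_mono P K ((co_vW K θ 0 hu hu).add ((co_eW K θ hu).smul δ)) (co_vW K θ δ hu hu)
    fun a z hz => (pt_low (θ := θ.th a z) hA (w_pos K hz) hδ (diffS hu hz)).2

theorem H_geW (hA : A.A2Stmt) (hδ : 0 < δ) (s : SM C π) :
    BInt P K (fun a z => eW K θ a (s.1 1 a) z) ≤ HL P K θ π hδ s s := by
  rw [HL_apply hA, ← div_eq_inv_mul, le_div_iff₀ hδ]
  have := en_zero_leW (P := P) (K := K) (θ := θ) hA hδ.le s.2
  linarith

theorem H_nnW (hA : A.A2Stmt) (hδ : 0 < δ) (s : SM C π) :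
    0 ≤ HL P K θ π hδ s s := (int_eW_nn hA s.2).trans (H_geW hA hδ s)

theorem H_symmW (hA : A.A2Stmt) (hδ : 0 < δ) (s v : SM C π) :
    HL P K θ π hδ s v = HL P K θ π hδ v s := by
  rw [HL_apply hA, HL_apply hA, en_symmW hA hδ.le, en_symmW hA le_rfl s.1]

theorem ip_LW (hδ : 0 < δ) (s v : SM C π) :
    ipL P K θ π hδ (LL K θ π hδ s) v = -enL P K θ π hδ s v := (neg_neg _).symm

theorem en_zero_LW (hA : A.A2Stmt) (P : PU C) (K : KM C) (θ : HF C q) (hu : Sec C π 0 u)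
    (hv : Sec C π 0 v) : enW P K θ 0 v u = -BInt P K (fun a z => ⟪lW K θ 0 a (u 1 a) z,
      v 1 a z⟫_ℝ) := by
  rw [ibp_zeroW hA P K θ hu hv, neg_neg, en_symmW hA le_rfl]

/-! ### Dissipativity -/

/-- `D |ℓ - p|²` -/
def rW (K : KM C) (θ : HF C q) (δ : ℝ) (hδ : 0 < δ) (a : C.I) (f : Cm n → H) (z : Cm n) : ℝ :=
  dD K θ 0 a z * ‖lapH ((KW K θ δ hδ).w a) f z‖ ^ 2 -
    2 * ⟪lW K θ 0 a f z, lapH ((KW K θ δ hδ).w a) f z⟫_ℝ + pW K θ a f z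

/-- `δ⁻¹ (D_δ |x|² - D |P|²)` -/
def nW (K : KM C) (θ : HF C q) (δ : ℝ) (hδ : 0 < δ) (a : C.I) (f : Cm n → H) (z : Cm n) : ℝ :=
  δ⁻¹ * (dD K θ δ a z * hhH ((KW K θ δ hδ).w a) f f z - (pW K θ a f z - qW K θ 0 a f z))

theorem sm_lap (hδ : 0 < δ) (hu : Sec C π 0 u) {a : C.I} {z : Cm n} (hz : z ∈ C.Ω a) :
    ContDiffAt ℝ ∞ (fun y => lapH ((KW K θ δ hδ).w a) (u 1 a) y) z :=
  sm_lM (mcI (KW K θ δ hδ) hz) (hu.smooth 1 a z hz)

theorem co_lap (hδ : 0 < δ) (hu : Sec C π 0 u) :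
    CO C (fun a z => ‖lapH ((KW K θ δ hδ).w a) (u 1 a) z‖ ^ 2) := by
  intro a z hz
  exact (((sm_lap hδ hu hz).continuousAt.norm).pow 2).continuousWithinAt

theorem co_pl (hδ : 0 < δ) (hu : Sec C π 0 u) :
    CO C (fun a z => ⟪lW K θ 0 a (u 1 a) z, lapH ((KW K θ δ hδ).w a) (u 1 a) z⟫_ℝ) :=
  co_of fun a z hz => (sm_lW K θ 0 hu hz).inner ℝ (sm_lap hδ hu hz)

theorem co_rW (hA : A.A2Stmt) (hδ : 0 < δ) (hu : Sec C π 0 u) :
    CO C (fun a z => rW K θ δ hδ a (u 1 a) z) :=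
  (((co_dD K θ 0).mul (co_lap hδ hu)).sub ((co_pl hδ hu).smul 2)).add (co_pW hA K θ hu)

theorem co_nW (hA : A.A2Stmt) (hδ : 0 < δ) (hu : Sec C π 0 u) :
    CO C (fun a z => nW K θ δ hδ a (u 1 a) z) :=
  (((co_dD K θ δ).mul (co_hhH (KW K θ δ hδ) hu hu)).sub
    ((co_pW hA K θ hu).sub (co_qW hA K θ le_rfl hu))).smul _

theorem lW_zero (hA : A.A2Stmt) {f : Cm n → H} {a : C.I} {z : Cm n} (hz : z ∈ C.Ω a)
    (h0 : dD K θ 0 a z = 0) : lW K θ 0 a f z = 0 := by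
  rw [lW, hA.zero _ _ (w_pos K hz) h0, lM_zero]

/-- the identities at a point -/
theorem pt_mainW (hA : A.A2Stmt) (hδ : 0 < δ) (f : Cm n → H) {a : C.I} {z : Cm n}
    (hz : z ∈ C.Ω a) :
    0 ≤ rW K θ δ hδ a f z ∧
    pW K θ a f z ≤ 2 * (dD K θ δ a z * ‖lapH ((KW K θ δ hδ).w a) f z‖ ^ 2) +
      2 * rW K θ δ hδ a f z ∧
    (rW K θ δ hδ a f z + δ * nW K θ δ hδ a f z) / 2 ≤
      dD K θ δ a z * ‖lapH ((KW K θ δ hδ).w a) f z‖ ^ 2 -
        ⟪lW K θ 0 a f z, lapH ((KW K θ δ hδ).w a) f z⟫_ℝ -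
        qW K θ δ a f z / 2 + qW K θ 0 a f z / 2 := by
  have hD := hA.DD_nonneg (K.w a z) (θ.th a z) δ (w_pos K hz) hδ.le
  have hD0 : 0 ≤ dD K θ 0 a z := hD.1
  have hD1 : dD K θ 0 a z ≤ dD K θ δ a z := hD.2.1
  set l := lapH ((KW K θ δ hδ).w a) f z with hl
  set p := lW K θ 0 a f z with hp
  have hl2 : 0 ≤ ‖l‖ ^ 2 := sq_nonneg _
  have key : ∀ t : ℝ, 0 < dD K θ 0 a z → t ^ 2 * (dD K θ 0 a z * ‖l‖ ^ 2) - 2 * t * ⟪p, l⟫_ℝ +
      ‖p‖ ^ 2 / dD K θ 0 a z = ‖(t * dD K θ 0 a z) • l - p‖ ^ 2 / dD K θ 0 a z := by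
    intro t h0
    rw [norm_sub_sq_real, norm_smul, mul_pow, Real.norm_eq_abs, sq_abs, real_inner_smul_left,
      real_inner_comm l p]
    field_simp
  have hr : 0 ≤ rW K θ δ hδ a f z := by
    rw [rW, pW, ← hl, ← hp]
    rcases hD0.eq_or_lt with h0 | h0
    · have h1 : p = 0 := lW_zero hA hz h0.symm
      rw [h1, ← h0]
      simp
    · have := key 1 h0
      have h2 : 0 ≤ ‖(1 * dD K θ 0 a z) • l - p‖ ^ 2 / dD K θ 0 a z := by positivity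
      rw [← this] at h2
      linarith
  refine ⟨hr, ?_, ?_⟩
  · have h1 : pW K θ a f z ≤ 2 * (dD K θ 0 a z * ‖l‖ ^ 2) + 2 * rW K θ δ hδ a f z := by
      rw [rW, pW, ← hl, ← hp]
      rcases hD0.eq_or_lt with h0 | h0
      · have h1 : p = 0 := lW_zero hA hz h0.symm
        rw [h1, ← h0]
        simp
      · have := key 2 h0
        have h2 : 0 ≤ ‖(2 * dD K θ 0 a z) • l - p‖ ^ 2 / dD K θ 0 a z := by positivity
        rw [← this] at h2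
        linarith
    have h2 : dD K θ 0 a z * ‖l‖ ^ 2 ≤ dD K θ δ a z * ‖l‖ ^ 2 := mul_le_mul_of_nonneg_right hD1 hl2
    linarith
  · have h1 : qW K θ δ a f z = dD K θ δ a z * (‖l‖ ^ 2 - hhH ((KW K θ δ hδ).w a) f f z) :=
      (hh_KWW hA hδ f hz).symm
    have h2 : δ * nW K θ δ hδ a f z = dD K θ δ a z * hhH ((KW K θ δ hδ).w a) f f z -
        (pW K θ a f z - qW K θ 0 a f z) := by
      rw [nW, ← mul_assoc, mul_inv_cancel₀ hδ.ne', one_mul]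
    have h3 : dD K θ 0 a z * ‖l‖ ^ 2 ≤ dD K θ δ a z * ‖l‖ ^ 2 := mul_le_mul_of_nonneg_right hD1 hl2
    rw [h1, h2, rW, ← hl, ← hp]
    nlinarith

/-- **Dissipativity.** -/
theorem H_dissW (hA : A.A2Stmt) (hδ : 0 < δ) (s : SM C π) :
    (BInt P K (fun a z => rW K θ δ hδ a (s.1 1 a) z) +
      δ * BInt P K (fun a z => nW K θ δ hδ a (s.1 1 a) z)) / 2 ≤
      δ * -HL P K θ π hδ (LL K θ π hδ s) s := by
  set Ls : SM C π := LL K θ π hδ s with hLs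
  have hev : ∀ a, ∀ z ∈ C.Ω a, Ls.1 1 a z = lapH ((KW K θ δ hδ).w a) (s.1 1 a) z :=
    fun a z hz => LL_ev hδ s hz
  have e1 : enW P K θ δ Ls.1 s.1 = -ipW P K θ δ Ls.1 Ls.1 := by
    rw [← ipL_apply hδ, hLs, ip_LW, ← hLs, neg_neg, enL_eq hA, en_symmW hA hδ.le]
  have e2 : enW P K θ 0 Ls.1 s.1 = -BInt P K (fun a z => ⟪lW K θ 0 a (s.1 1 a) z, Ls.1 1 a z⟫_ℝ) :=
    en_zero_LW hA P K θ s.2 Ls.2
  have e3 : δ * -HL P K θ π hδ Ls s = ipW P K θ δ Ls.1 Ls.1 -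
      BInt P K (fun a z => ⟪lW K θ 0 a (s.1 1 a) z, Ls.1 1 a z⟫_ℝ) := by
    rw [HL_apply hA, e1, e2]
    field_simp
    ring
  have F1 := co_ip K θ δ Ls.2 Ls.2
  have F2 := co_lin K θ 0 s.2 Ls.2
  have F3 := co_qW hA K θ hδ.le s.2
  have F4 := co_qW hA K θ le_rfl s.2
  have F5 := F3.smul (1 / 2)
  have F6 := F4.smul (1 / 2)
  have e4 : ipW P K θ δ Ls.1 Ls.1 -
      BInt P K (fun a z => ⟪lW K θ 0 a (s.1 1 a) z, Ls.1 1 a z⟫_ℝ) =
      BInt P K (fun a z => (dD K θ δ a z * ⟪Ls.1 1 a z, Ls.1 1 a z⟫_ℝ -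
        ⟪lW K θ 0 a (s.1 1 a) z, Ls.1 1 a z⟫_ℝ - 1 / 2 * qW K θ δ a (s.1 1 a) z) +
        1 / 2 * qW K θ 0 a (s.1 1 a) z) := by
    rw [BI_add P K ((F1.sub F2).sub F5) F6, BI_sub P K (F1.sub F2) F5,
      BI_sub P K F1 F2, BInt_smul, BInt_smul,
      kahler_posW hA P K θ s.2 hδ, kahler_zeroW hA P K θ s.2]
    rw [ipW]
    ring
  have F7 := co_rW (K := K) (θ := θ) hA hδ s.2
  have F8 := co_nW (K := K) (θ := θ) hA hδ s.2
  have e5 : (BInt P K (fun a z => rW K θ δ hδ a (s.1 1 a) z) +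
      δ * BInt P K (fun a z => nW K θ δ hδ a (s.1 1 a) z)) / 2 =
      BInt P K (fun a z => 1 / 2 * (rW K θ δ hδ a (s.1 1 a) z + δ * nW K θ δ hδ a (s.1 1 a) z)) := by
    rw [BInt_smul, BI_add P K F7 (F8.smul δ), BInt_smul]
    ring
  rw [e3, e4, e5]
  refine BI_mono P K ((F7.add (F8.smul δ)).smul _) (((F1.sub F2).sub F5).add F6)
    fun a z hz => ?_
  have h1 := (pt_mainW (K := K) (θ := θ) hA hδ (s.1 1 a) hz).2.2
  rw [hev a z hz, real_inner_self_eq_norm_sq]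
  linarith

/-! ### Bounds -/

theorem int_hhW (hδ : 0 < δ) (s : SM C π) :
    BInt P K (fun a z => dD K θ δ a z * hhH ((KW K θ δ hδ).w a) (s.1 1 a) (s.1 1 a) z) =
      ipW P K θ δ (LL K θ π hδ s).1 (LL K θ π hδ s).1 := by
  rw [ipW, BInt_KW' P hδ, BInt_KW' P hδ, ← H119.T.kahler P (KW K θ δ hδ) s.2 s.2]
  congr 1
  exact BI_cg P _ fun a z hz => by rw [LL_ev hδ s hz]

theorem cross_leW (hA : A.A2Stmt) (hδ : 0 < δ) (s h : SM C π) :
    (BInt P K (fun a z => ⟪lW K θ 0 a (s.1 1 a) z, h.1 1 a z⟫_ℝ)) ^ 2 ≤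
      n * ipW P K θ δ (LL K θ π hδ s).1 (LL K θ π hδ s).1 * ipW P K θ δ h.1 h.1 := by
  set X := BInt P K (fun a z => ⟪lW K θ 0 a (s.1 1 a) z, h.1 1 a z⟫_ℝ) with hX
  set A := ipW P K θ δ (LL K θ π hδ s).1 (LL K θ π hδ s).1 with hAA
  set B := ipW P K θ δ h.1 h.1 with hB
  have hA0 : 0 ≤ A := ip_nnW hA hδ.le _
  have hB0 : 0 ≤ B := ip_nnW hA hδ.le _
  have F1 := co_lin K θ 0 s.2 h.2
  have F2 : CO C (fun a z => dD K θ δ a z *
      hhH ((KW K θ δ hδ).w a) (s.1 1 a) (s.1 1 a) z) :=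
    (co_dD K θ δ).mul (co_hhH (KW K θ δ hδ) s.2 s.2)
  have F3 := co_ip K θ δ h.2 h.2
  have key : ∀ t : ℝ, 0 < t → |X| ≤ t * (n * A / 2) + (B / 2) / t := by
    intro t ht
    have hpt : ∀ a, ∀ z ∈ C.Ω a, |⟪lW K θ 0 a (s.1 1 a) z, h.1 1 a z⟫_ℝ| ≤
        (t * n / 2) * (dD K θ δ a z * hhH ((KW K θ δ hδ).w a) (s.1 1 a) (s.1 1 a) z) +
        (1 / (2 * t)) * (dD K θ δ a z * ⟪h.1 1 a z, h.1 1 a z⟫_ℝ) := by
      intro a z hz
      have hD := hA.DD_nonneg (K.w a z) (θ.th a z) δ (w_pos K hz) hδ.le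
      have hDp : 0 < dD K θ δ a z := hD.2.2 hδ
      have hDle : dD K θ 0 a z ≤ dD K θ δ a z := hD.2.1
      have h1 : ‖lW K θ 0 a (s.1 1 a) z‖ ^ 2 ≤ n * (dD K θ 0 a z * dD K θ δ a z *
          hhH ((KW K θ δ hδ).w a) (s.1 1 a) (s.1 1 a) z) :=
        pt_tr0 (w := K.w a z) (θ := θ.th a z) hA (w_pos K hz) hδ (s.2.smooth 1 a z hz)
      have h2 : 0 ≤ hhH ((KW K θ δ hδ).w a) (s.1 1 a) (s.1 1 a) z := hh_nn (KW K θ δ hδ) s.2 hz
      have hin := abs_real_inner_le_norm (lW K θ 0 a (s.1 1 a) z) (h.1 1 a z)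
      rw [real_inner_self_eq_norm_sq]
      have hl0 := norm_nonneg (lW K θ 0 a (s.1 1 a) z)
      have hx0 := norm_nonneg (h.1 1 a z)
      set l := ‖lW K θ 0 a (s.1 1 a) z‖
      set x := ‖h.1 1 a z‖
      set D := dD K θ δ a z
      set Hh := hhH ((KW K θ δ hδ).w a) (s.1 1 a) (s.1 1 a) z
      have h3 : l ^ 2 ≤ n * (D * D * Hh) := by
        refine h1.trans (mul_le_mul_of_nonneg_left ?_ (Nat.cast_nonneg n))
        exact mul_le_mul_of_nonneg_right (mul_le_mul_of_nonneg_right hDle hDp.le) h2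
      have h4 : t / 2 * (l ^ 2 / D) ≤ (t * n / 2) * (D * Hh) := by
        have : l ^ 2 / D ≤ n * (D * Hh) := by
          rw [div_le_iff₀ hDp]
          calc l ^ 2 ≤ _ := h3
            _ = _ := by ring
        calc t / 2 * (l ^ 2 / D) ≤ t / 2 * (n * (D * Hh)) :=
              mul_le_mul_of_nonneg_left this (by positivity)
          _ = _ := by ring
      have h5 : l * x ≤ t / 2 * (l ^ 2 / D) + (1 / (2 * t)) * (D * x ^ 2) := by
        have e1 : t / 2 * (l ^ 2 / D) + (1 / (2 * t)) * (D * x ^ 2) - l * x =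
            (t * l - D * x) ^ 2 / (2 * t * D) := by
          field_simp
          ring
        have g1 : 0 ≤ (t * l - D * x) ^ 2 / (2 * t * D) := by positivity
        linarith
      linarith
    have G1 := (F2.smul (t * n / 2)).add (F3.smul (1 / (2 * t)))
    have e : BInt P K (fun a z => (t * n / 2) * (dD K θ δ a z *
        hhH ((KW K θ δ hδ).w a) (s.1 1 a) (s.1 1 a) z) +
        (1 / (2 * t)) * (dD K θ δ a z * ⟪h.1 1 a z, h.1 1 a z⟫_ℝ)) =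
        t * (n * A / 2) + (B / 2) / t := by
      rw [BI_add P K (F2.smul _) (F3.smul _), BInt_smul, BInt_smul, int_hhW hδ s]
      have : BInt P K (fun a z => dD K θ δ a z * ⟪h.1 1 a z, h.1 1 a z⟫_ℝ) = B := rfl
      rw [this, ← hAA]
      field_simp
    rw [← e, abs_le]
    constructor
    · have h1 := BI_mono (P := P) (K := K) (G1.smul (-1)) F1 fun a z hz => by
        have := (abs_le.1 (hpt a z hz)).1
        linarith
      rw [BInt_smul] at h1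
      linarith
    · exact BI_mono P K F1 G1 fun a z hz => (le_abs_self _).trans (hpt a z hz)
  have := sq_le_of_forall (X := X) (A := n * A / 2) (B := B / 2) (by positivity) (by positivity) key
  calc X ^ 2 ≤ 4 * (n * A / 2 * (B / 2)) := this
    _ = n * A * B := by ring

/-- `H(f,h)² ≤ B ip(Lf,Lf) ip(h,h)` -/
theorem H_bdW (hA : A.A2Stmt) (P : PU C) (K : KM C) (θ : HF C q) (π : Γ →* (H ≃ₗᵢ[ℝ] H))
    (hδ : 0 < δ) : ∃ B : ℝ, ∀ f h : SM C π, HL P K θ π hδ f h ^ 2 ≤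
      B * (ipL P K θ π hδ f f + ipL P K θ π hδ (LL K θ π hδ f) (LL K θ π hδ f)) *
        ipL P K θ π hδ h h := by
  refine ⟨δ⁻¹ ^ 2 * (2 * (n + 1)), fun f h => ?_⟩
  set A := ipL P K θ π hδ (LL K θ π hδ f) (LL K θ π hδ f) with hAA
  set B := ipL P K θ π hδ h h with hB
  have hA0 : 0 ≤ A := by rw [hAA, ipL_apply]; exact ip_nnW hA hδ.le _
  have hB0 : 0 ≤ B := by rw [hB, ipL_apply]; exact ip_nnW hA hδ.le _
  have hf0 : 0 ≤ ipL P K θ π hδ f f := by rw [ipL_apply]; exact ip_nnW hA hδ.le _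
  have h1 := cross_leW (P := P) (K := K) (θ := θ) hA hδ f h
  rw [← ipL_apply (π := π) hδ, ← ipL_apply (π := π) hδ, ← hAA, ← hB] at h1
  set X := BInt P K (fun a z => ⟪lW K θ 0 a (f.1 1 a) z, h.1 1 a z⟫_ℝ) with hX
  set Y := ipL P K θ π hδ (LL K θ π hδ f) h with hY
  have h2 : Y ^ 2 ≤ A * B := by
    have key : ∀ t : ℝ, 0 ≤ A + 2 * t * Y + t ^ 2 * B := by
      intro t
      have h4 : 0 ≤ ipL P K θ π hδ (LL K θ π hδ f + t • h) (LL K θ π hδ f + t • h) := by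
        rw [ipL_apply]; exact ip_nnW hA hδ.le _
      have h5' : ipL P K θ π hδ h (LL K θ π hδ f) = Y := by
        rw [hY, ipL_apply, ipL_apply, ip_symmW]
      simp only [map_add, map_smul, LinearMap.add_apply, LinearMap.smul_apply, smul_eq_mul] at h4
      rw [h5'] at h4
      nlinarith
    rcases hB0.eq_or_lt with h0 | h0
    · have hY0 : Y = 0 := by
        by_contra hne
        have := key (-(A + 1) / (2 * Y))
        rw [← h0] at this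
        have e : A + 2 * (-(A + 1) / (2 * Y)) * Y + (-(A + 1) / (2 * Y)) ^ 2 * 0 = -1 := by
          field_simp
          ring
        rw [e] at this
        linarith
      rw [hY0, ← h0]; simp
    · have := key (-(Y / B))
      have e : A + 2 * -(Y / B) * Y + (-(Y / B)) ^ 2 * B = A - Y ^ 2 / B := by
        field_simp
        ring
      rw [e] at this
      have h6 : Y ^ 2 / B ≤ A := by linarith
      rwa [div_le_iff₀ h0] at h6
  have e1 : HL P K θ π hδ f h = δ⁻¹ * (-Y + X) := by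
    rw [HL_apply hA]
    have e2 : enW P K θ δ f.1 h.1 = -Y := by
      rw [hY, ip_LW hδ, neg_neg, enL_eq hA]
    have e3 : enW P K θ 0 f.1 h.1 = -X := by
      rw [hX, ibp_zeroW hA P K θ f.2 h.2, neg_neg]
    rw [e2, e3]
    ring
  rw [e1]
  have h7 : (-Y + X) ^ 2 ≤ 2 * (n + 1) * (A * B) := by nlinarith [sq_nonneg (Y + X)]
  have h8 : (δ⁻¹ * (-Y + X)) ^ 2 ≤ δ⁻¹ ^ 2 * (2 * (n + 1) * (A * B)) := by
    rw [mul_pow]
    exact mul_le_mul_of_nonneg_left h7 (by positivity)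
  refine h8.trans ?_
  have h9 : 0 ≤ δ⁻¹ ^ 2 * (2 * ((n : ℝ) + 1)) := by positivity
  calc δ⁻¹ ^ 2 * (2 * (n + 1) * (A * B)) = δ⁻¹ ^ 2 * (2 * (n + 1)) * A * B := by ring
    _ ≤ δ⁻¹ ^ 2 * (2 * (n + 1)) * (ipL P K θ π hδ f f + A) * B := by
      refine mul_le_mul_of_nonneg_right (mul_le_mul_of_nonneg_left ?_ h9) hB0
      linarith

/-- upper bounds -/
theorem en_upW (hA : A.A2Stmt) (P : PU C) (K : KM C) (θ : HF C q) : ∃ c : ℝ, 0 < c ∧
    ∀ (H : Type) [NormedAddCommGroup H] [InnerProductSpace ℝ H] (π : Γ →* (H ≃ₗᵢ[ℝ] H))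
      (δ : ℝ) (hδ : 0 < δ), δ ≤ 1 → ∀ s : SM C π,
    ipW P K θ δ s.1 s.1 ≤ c * BInt P K (fun a z => ‖s.1 1 a z‖ ^ 2) ∧
    enW P K θ δ s.1 s.1 ≤ c * BInt P K (fun a z => grH (K.w a) (s.1 1 a) (s.1 1 a) z) ∧
    HL P K θ π hδ s s ≤ c * BInt P K (fun a z => grH (K.w a) (s.1 1 a) (s.1 1 a) z) := by
  obtain ⟨c, hc, hup⟩ := ups hA K θ
  refine ⟨c, hc, fun H _ _ π δ hδ hδ1 s => ⟨?_, ?_, ?_⟩⟩
  · have F : CO C (fun a z => ‖s.1 1 a z‖ ^ 2) := fun a z hz =>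
      ((s.2.smooth 1 a z hz).continuousAt.norm.pow 2).continuousWithinAt
    rw [← BInt_smul]
    refine BI_mono P K (co_ip K θ δ s.2 s.2) (F.smul c) fun a z hz => ?_
    rw [real_inner_self_eq_norm_sq]
    exact mul_le_mul_of_nonneg_right (hup δ hδ.le hδ1 a z hz).1 (sq_nonneg _)
  · rw [← BInt_smul]
    exact BI_mono P K (co_vW K θ δ s.2 s.2) ((co_grH K s.2 s.2).smul c) fun a z hz =>
      ((hup δ hδ.le hδ1 a z hz).2.2 (diffS s.2 hz)).1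
  · rw [HL_apply hA, ← div_eq_inv_mul, div_le_iff₀ hδ, sub_le_iff_le_add]
    have F := co_grH K s.2 s.2
    have F0 := co_vW K θ 0 s.2 s.2
    have e : c * BInt P K (fun a z => grH (K.w a) (s.1 1 a) (s.1 1 a) z) * δ +
        enW P K θ 0 s.1 s.1 = BInt P K (fun a z => (c * δ) * grH (K.w a) (s.1 1 a) (s.1 1 a) z +
          vW K θ 0 a (s.1 1 a) (s.1 1 a) z) := by
      rw [BI_add P K (F.smul _) F0, BInt_smul, enW]
      ring
    rw [e]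
    refine BI_mono P K (co_vW K θ δ s.2 s.2) ((F.smul _).add F0) fun a z hz => ?_
    have := ((hup δ hδ.le hδ1 a z hz).2.2 (diffS s.2 hz)).2
    linarith

end glob

end Vale.Agent.P284.H402.T
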