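import Vale.Agent.P284.H119.TKg
import Vale.Agent.P284.H977.T.Mod
import Vale.Agent.P284.H402.A.Fin

/-!
# P284, theorem T3 (A'' for Hilbert valued sections), helper402: densities, expansions in components
-/

open scoped Manifold ContDiff Topology Pointwise ComplexConjugate ComplexOrder Matrix InnerProductSpace
open Filter Set Metric MeasureTheory

noncomputable section

namespace Vale.Agent.P284.H402.T

open Vale.Agent.P272.K Vale.Agent.P284.H248 Vale.Agent.P284.H894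
  Vale.Agent.P284.H894.G Vale.Agent.P284.H894.V Vale.Agent.P284.H359.V
  Vale.Agent.P284.H402.A

open Vale.Agent.P284.H287.T (cw dH ddH sg grH lapH hhH Sec cmp Good exists_good exists_good₂
  cHess_eq ddH_cmp dH_cmp cmp_contDiffAt sum_split2 sum4 sum5 sum3 innR formw)

section alg
variable {n : ℕ} {H : Type} [NormedAddCommGroup H] [InnerProductSpace ℝ H]

/-- the real coefficients of a matrix -/
def cwM (M : Matrix (Fin n) (Fin n) ℂ) (a b : Fin n × Bool) : ℝ := cf (M b.1 a.1) a.2 b.2 / 4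

/-- `Re (ȳ M x)` summed over the components -/
def gM (M : Matrix (Fin n) (Fin n) ℂ) (x y : Fin n × Bool → H) : ℝ :=
  ∑ a, ∑ b, cwM M a b * ⟪x a, y b⟫_ℝ

/-- `tr (M X)` -/
def lM (M : Matrix (Fin n) (Fin n) ℂ) (X : Fin n × Bool → Fin n × Bool → H) : H :=
  ∑ a, ∑ b, cwM M a b • X a b

/-- `tr (A X B Y)` summed over the components -/
def tM (A B : Matrix (Fin n) (Fin n) ℂ) (X Y : Fin n × Bool → Fin n × Bool → H) : ℝ :=
  ∑ a, ∑ b, ∑ c, ∑ d, (1 / 16) *
    (A d.1 a.1 * B b.1 c.1 * sg a.2 b.2 * sg c.2 d.2).re * ⟪X a b, Y c d⟫_ℝ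

theorem grH_gM (w : Cm n → Matrix (Fin n) (Fin n) ℂ) (u v : Cm n → H) (z : Cm n) :
    grH w u v z = gM (w z)⁻¹ (dH u z) (dH v z) := rfl

theorem lapH_lM (w : Cm n → Matrix (Fin n) (Fin n) ℂ) (u : Cm n → H) (z : Cm n) :
    lapH w u z = lM (w z)⁻¹ (ddH u z) := rfl

theorem hhH_tM (w : Cm n → Matrix (Fin n) (Fin n) ℂ) (u v : Cm n → H) (z : Cm n) :
    hhH w u v z = tM (w z)⁻¹ (w z)⁻¹ (ddH u z) (ddH v z) := rfl

/-! ### Scalar functions -/

theorem gM_pd (M : Matrix (Fin n) (Fin n) ℂ) {F G : Cm n → ℝ} {z : Cm n}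
    (hF : DifferentiableAt ℝ F z) (hG : DifferentiableAt ℝ G z) :
    gM M (dH F z) (dH G z) = qf M (A.pd F z) (A.pd G z) := by
  have e : qf M (A.pd F z) (A.pd G z) = ∑ j, ∑ k, (M k j * dz j (fun y => (F y : ℂ)) z *
      dzb k (fun y => (G y : ℂ)) z).re := by
    unfold qf
    rw [dotProduct, Complex.re_sum, Finset.sum_comm]
    refine Finset.sum_congr rfl fun k _ => ?_
    rw [Matrix.mulVec, dotProduct, Finset.mul_sum, Complex.re_sum]
    refine Finset.sum_congr rfl fun j _ => ?_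
    rw [H730.V.dzb_dd]
    congr 1
    show (star (H730.V.dd G z)) k * (M k j * H730.V.dd F z j) = _
    rw [Pi.star_apply, RCLike.star_def]
    show _ = M k j * H730.V.dd F z j * _
    ring
  rw [e]
  unfold gM
  rw [sum_split]
  refine Finset.sum_congr rfl fun j _ => Finset.sum_congr rfl fun k _ => ?_
  rw [dz_coe hF, dzb_coe hG, formw]
  simp only [innR, cwM, dH, Vale.Agent.P284.H359.Fr.pd]

theorem lM_tr (M : Matrix (Fin n) (Fin n) ℂ) {F : Cm n → ℝ} {z : Cm n}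
    (hF : ContDiffAt ℝ 2 F z) : lM M (ddH F z) = tr1 M (cHess F z) := by
  unfold lM tr1
  rw [sum_split, Matrix.trace, Complex.re_sum]
  simp only [Matrix.diag_apply, Matrix.mul_apply, Complex.re_sum]
  rw [Finset.sum_comm]
  refine Finset.sum_congr rfl fun j _ => Finset.sum_congr rfl fun k _ => ?_
  rw [cHess_eq hF]
  simp only [Fintype.sum_bool, sg, cwM, cf, smul_eq_mul]
  simp
  ring

theorem tM_tr (A B : Matrix (Fin n) (Fin n) ℂ) {F G : Cm n → ℝ} {z : Cm n}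
    (hF : ContDiffAt ℝ 2 F z) (hG : ContDiffAt ℝ 2 G z) :
    tM A B (ddH F z) (ddH G z) = (A * cHess F z * (B * cHess G z)).trace.re := by
  have e : (A * cHess F z * (B * cHess G z)).trace =
      ∑ a : Fin n × Bool, ∑ b : Fin n × Bool, ∑ c : Fin n × Bool, ∑ d : Fin n × Bool, (1 / 16) *
        (A d.1 a.1 * B b.1 c.1 * sg a.2 b.2 * sg c.2 d.2) *
        ((ddH F z a b : ℝ) : ℂ) * ((ddH G z c d : ℝ) : ℂ) := by
    rw [sum_split2]
    simp only [sum_split2 (n := n) (M := ℂ)]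
    have h1 : (A * cHess F z * (B * cHess G z)).trace =
        ∑ j, ∑ k, ∑ l, ∑ i, A i j * cHess F z j k * (B k l * cHess G z l i) := by
      simp only [Matrix.trace, Matrix.diag_apply, Matrix.mul_apply, Finset.sum_mul_sum]
      exact sum4 _
    rw [h1]
    refine Finset.sum_congr rfl fun j _ => Finset.sum_congr rfl fun k _ => ?_
    have h2 : ∀ (G : Bool → Bool → Fin n → Fin n → ℂ), ∑ α, ∑ β, ∑ l, ∑ i, G α β l i =
        ∑ l, ∑ i, ∑ α, ∑ β, G α β l i := by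
      intro G
      simp only [Fintype.sum_bool, Finset.sum_add_distrib]
    rw [h2]
    refine Finset.sum_congr rfl fun l _ => Finset.sum_congr rfl fun i _ => ?_
    rw [cHess_eq hF, cHess_eq hG]
    simp only [Fintype.sum_bool]
    ring
  rw [e]
  unfold tM
  simp only [Complex.re_sum]
  refine Finset.sum_congr rfl fun a _ => Finset.sum_congr rfl fun b _ =>
    Finset.sum_congr rfl fun c _ => Finset.sum_congr rfl fun d _ => ?_
  rw [Complex.re_mul_ofReal, Complex.re_mul_ofReal, innR]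
  have : ((1 / 16 : ℂ) * (A d.1 a.1 * B b.1 c.1 * sg a.2 b.2 * sg c.2 d.2)).re =
      1 / 16 * (A d.1 a.1 * B b.1 c.1 * sg a.2 b.2 * sg c.2 d.2).re := by
    rw [show (1 / 16 : ℂ) = ((1 / 16 : ℝ) : ℂ) by push_cast; rfl, Complex.re_ofReal_mul]
  rw [this]
  ring

/-! ### Components -/

variable {m : ℕ} {e : Fin m → H}

theorem gM_sum (M : Matrix (Fin n) (Fin n) ℂ) {x y : Fin n × Bool → H}
    (hx : ∀ a y, ⟪x a, y⟫_ℝ = ∑ i, ⟪x a, e i⟫_ℝ * ⟪y, e i⟫_ℝ) :
    gM M x y = ∑ i, gM M (fun a => ⟪x a, e i⟫_ℝ) (fun b => ⟪y b, e i⟫_ℝ) := by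
  unfold gM
  rw [sum3]
  refine Finset.sum_congr rfl fun a _ => Finset.sum_congr rfl fun b _ => ?_
  rw [hx, Finset.mul_sum]
  refine Finset.sum_congr rfl fun i _ => ?_
  rw [innR]

theorem inner_lM (M : Matrix (Fin n) (Fin n) ℂ) (X : Fin n × Bool → Fin n × Bool → H) (y : H) :
    ⟪lM M X, y⟫_ℝ = lM M fun a b => ⟪X a b, y⟫_ℝ := by
  unfold lM
  simp only [sum_inner, real_inner_smul_left, smul_eq_mul]

theorem tM_sum (A B : Matrix (Fin n) (Fin n) ℂ) {X Y : Fin n × Bool → Fin n × Bool → H}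
    (hX : ∀ a b y, ⟪X a b, y⟫_ℝ = ∑ i, ⟪X a b, e i⟫_ℝ * ⟪y, e i⟫_ℝ) :
    tM A B X Y = ∑ i, tM A B (fun a b => ⟪X a b, e i⟫_ℝ) (fun a b => ⟪Y a b, e i⟫_ℝ) := by
  unfold tM
  rw [sum5]
  refine Finset.sum_congr rfl fun a _ => Finset.sum_congr rfl fun b _ =>
    Finset.sum_congr rfl fun c _ => Finset.sum_congr rfl fun d _ => ?_
  rw [hX, Finset.mul_sum]
  refine Finset.sum_congr rfl fun i _ => ?_
  rw [innR]

theorem lM_inner (A : Matrix (Fin n) (Fin n) ℂ) {X : Fin n × Bool → Fin n × Bool → H}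
    (hX : ∀ a b y, ⟪X a b, y⟫_ℝ = ∑ i, ⟪X a b, e i⟫_ℝ * ⟪y, e i⟫_ℝ) (y : H) :
    ⟪lM A X, y⟫_ℝ = ∑ i, ⟪lM A X, e i⟫_ℝ * ⟪y, e i⟫_ℝ := by
  simp only [inner_lM]
  unfold lM
  simp only [smul_eq_mul, Finset.sum_mul]
  rw [sum3]
  refine Finset.sum_congr rfl fun a _ => Finset.sum_congr rfl fun b _ => ?_
  rw [hX, Finset.mul_sum]
  refine Finset.sum_congr rfl fun i _ => ?_
  ring

variable {f h : Cm n → H} {z : Cm n}

theorem Good_gM (hg : Good f z e) (M : Matrix (Fin n) (Fin n) ℂ) (hf : DifferentiableAt ℝ f z)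
    (hh : DifferentiableAt ℝ h z) : gM M (dH f z) (dH h z) =
      ∑ i, qf M (A.pd (cmp f (e i)) z) (A.pd (cmp h (e i)) z) := by
  rw [gM_sum M hg.d1]
  refine Finset.sum_congr rfl fun i _ => ?_
  have hF : DifferentiableAt ℝ (cmp f (e i)) z := hf.inner ℝ (differentiableAt_const _)
  have hG : DifferentiableAt ℝ (cmp h (e i)) z := hh.inner ℝ (differentiableAt_const _)
  rw [← gM_pd M hF hG]
  congr 1
  · funext a; exact (dH_cmp hf (e i) a).symm
  · funext a; exact (dH_cmp hh (e i) a).symm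

theorem inner_lM_cmp (M : Matrix (Fin n) (Fin n) ℂ) (hf : ContDiffAt ℝ 2 f z) (y : H) :
    ⟪lM M (ddH f z), y⟫_ℝ = tr1 M (cHess (cmp f y) z) := by
  rw [inner_lM, ← lM_tr M (cmp_contDiffAt hf y)]
  congr 1
  funext a b
  exact (ddH_cmp hf y a b).symm

theorem Good_lM (hg : Good f z e) (A B : Matrix (Fin n) (Fin n) ℂ) (hf : ContDiffAt ℝ 2 f z)
    (hh : ContDiffAt ℝ 2 h z) : ⟪lM A (ddH f z), lM B (ddH h z)⟫_ℝ =
      ∑ i, tr1 A (cHess (cmp f (e i)) z) * tr1 B (cHess (cmp h (e i)) z) := by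
  rw [lM_inner A hg.d2]
  refine Finset.sum_congr rfl fun i _ => ?_
  rw [inner_lM_cmp A hf, inner_lM_cmp B hh]

theorem Good_lM_sq (hg : Good f z e) (A : Matrix (Fin n) (Fin n) ℂ) (hf : ContDiffAt ℝ 2 f z) :
    ‖lM A (ddH f z)‖ ^ 2 = ∑ i, tr1 A (cHess (cmp f (e i)) z) ^ 2 := by
  rw [← real_inner_self_eq_norm_sq, Good_lM hg A A hf hf]
  exact Finset.sum_congr rfl fun i _ => by rw [sq]

theorem Good_tM (hg : Good f z e) (A B : Matrix (Fin n) (Fin n) ℂ) (hf : ContDiffAt ℝ 2 f z)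
    (hh : ContDiffAt ℝ 2 h z) : tM A B (ddH f z) (ddH h z) =
      ∑ i, (A * cHess (cmp f (e i)) z * (B * cHess (cmp h (e i)) z)).trace.re := by
  rw [tM_sum A B hg.d2]
  refine Finset.sum_congr rfl fun i _ => ?_
  rw [← tM_tr A B (cmp_contDiffAt hf _) (cmp_contDiffAt hh _)]
  congr 1
  · funext a b; exact (ddH_cmp hf (e i) a b).symm
  · funext a b; exact (ddH_cmp hh (e i) a b).symm

theorem Good_tM' (hg : Good f z e) (A B : Matrix (Fin n) (Fin n) ℂ) (hf : ContDiffAt ℝ 2 f z) :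
    tM A B (ddH f z) (ddH f z) = ∑ i, tr2 A B (cHess (cmp f (e i)) z) := by
  rw [Good_tM hg A B hf hf]
  refine Finset.sum_congr rfl fun i _ => ?_
  rw [tr2]

end alg

end Vale.Agent.P284.H402.T
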