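import Vale.Agent.P284.H402.T.Spec

/-!
# P284, theorem T3 (A'')_W (helper402): local calculus of the densities
-/

open scoped Manifold ContDiff Topology Pointwise ComplexConjugate ComplexOrder Matrix InnerProductSpace
open Filter Set Metric MeasureTheory

noncomputable section

namespace Vale.Agent.P284.H402.T

open Vale.Agent.P272.K Vale.Agent.P284.H248 Vale.Agent.P284.H894
  Vale.Agent.P284.H894.G Vale.Agent.P284.H894.V Vale.Agent.P284.H913.V Vale.Agent.P284.H402.A
  Vale.Agent.P284.H359.V

open Vale.Agent.P284.H287.T (dH ddH Sec cmp Good exists_good exists_good₂ grH lapH hhH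
  cmp_contDiffAt sg ddH_cmp dH_cmp)

/-! ### Algebra -/

section alg
variable {n q : ℕ} {H : Type} [NormedAddCommGroup H] [InnerProductSpace ℝ H]
  {M A B : Matrix (Fin n) (Fin n) ℂ}

theorem cf_smul (r : ℝ) (x : ℂ) (α β : Bool) : cf ((r : ℂ) * x) α β = r * cf x α β := by
  cases α <;> cases β <;> simp [cf]

theorem cf_add (x y : ℂ) (α β : Bool) : cf (x + y) α β = cf x α β + cf y α β := by
  cases α <;> cases β <;> simp [cf]
  ring

theorem cwM_smul (r : ℝ) (a b : Fin n × Bool) : cwM ((r : ℂ) • M) a b = r * cwM M a b := by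
  rw [cwM, Matrix.smul_apply, smul_eq_mul, cf_smul, cwM]
  ring

theorem cwM_symm (hM : M.IsHermitian) (a b : Fin n × Bool) : cwM M a b = cwM M b a := by
  obtain ⟨j, α⟩ := a
  obtain ⟨k, β⟩ := b
  have h : conj (M j k) = M k j := hM.apply k j
  have h1 : (M j k).re = (M k j).re := by rw [← h]; simp
  have h2 : (M j k).im = -(M k j).im := by rw [← h]; simp
  unfold cwM cf
  cases α <;> cases β <;> simp [h1, h2]

theorem gM_symm (hM : M.IsHermitian) (x y : Fin n × Bool → H) : gM M x y = gM M y x := by
  unfold gM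
  rw [Finset.sum_comm]
  refine Finset.sum_congr rfl fun p _ => Finset.sum_congr rfl fun q _ => ?_
  rw [cwM_symm hM q p, real_inner_comm]

theorem gM_smulM (r : ℝ) (x y : Fin n × Bool → H) : gM ((r : ℂ) • M) x y = r * gM M x y := by
  unfold gM
  simp only [cwM_smul, Finset.mul_sum]
  refine Finset.sum_congr rfl fun p _ => Finset.sum_congr rfl fun q _ => ?_
  ring

theorem lM_smulM (r : ℝ) (X : Fin n × Bool → Fin n × Bool → H) :
    lM ((r : ℂ) • M) X = r • lM M X := by
  unfold lM
  simp only [cwM_smul, Finset.smul_sum, smul_smul]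

theorem tM_smulM (r t : ℝ) (X Y : Fin n × Bool → Fin n × Bool → H) :
    tM ((r : ℂ) • A) ((t : ℂ) • B) X Y = r * t * tM A B X Y := by
  unfold tM
  simp only [Finset.mul_sum]
  refine Finset.sum_congr rfl fun a _ => Finset.sum_congr rfl fun b _ =>
    Finset.sum_congr rfl fun c _ => Finset.sum_congr rfl fun d _ => ?_
  have : (((r : ℂ) • A) d.1 a.1 * ((t : ℂ) • B) b.1 c.1 * sg a.2 b.2 * sg c.2 d.2).re =
      r * t * (A d.1 a.1 * B b.1 c.1 * sg a.2 b.2 * sg c.2 d.2).re := by
    rw [Matrix.smul_apply, Matrix.smul_apply, smul_eq_mul, smul_eq_mul,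
      ← Complex.re_ofReal_mul]
    congr 1
    push_cast
    ring
  rw [this]
  ring

theorem gM_add_left (x x' y : Fin n × Bool → H) :
    gM M (fun a => x a + x' a) y = gM M x y + gM M x' y := by
  unfold gM
  simp only [inner_add_left, mul_add, Finset.sum_add_distrib]

theorem gM_add_right (x y y' : Fin n × Bool → H) :
    gM M x (fun a => y a + y' a) = gM M x y + gM M x y' := by
  unfold gM
  simp only [inner_add_right, mul_add, Finset.sum_add_distrib]

theorem gM_smul_left (r : ℝ) (x y : Fin n × Bool → H) :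
    gM M (fun a => r • x a) y = r * gM M x y := by
  unfold gM
  simp only [real_inner_smul_left, Finset.mul_sum]
  refine Finset.sum_congr rfl fun p _ => Finset.sum_congr rfl fun q _ => ?_
  ring

theorem gM_smul_right (r : ℝ) (x y : Fin n × Bool → H) :
    gM M x (fun a => r • y a) = r * gM M x y := by
  unfold gM
  simp only [real_inner_smul_right, Finset.mul_sum]
  refine Finset.sum_congr rfl fun p _ => Finset.sum_congr rfl fun q _ => ?_
  ring

theorem gM_iso (E : H ≃ₗᵢ[ℝ] H) (x y : Fin n × Bool → H) :
    gM M (fun a => E (x a)) (fun a => E (y a)) = gM M x y := by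
  unfold gM
  simp only [LinearIsometryEquiv.inner_map_map]

theorem lM_iso (E : H ≃ₗᵢ[ℝ] H) (X : Fin n × Bool → Fin n × Bool → H) :
    lM M (fun a b => E (X a b)) = E (lM M X) := by
  unfold lM
  simp only [map_sum, map_smul]

theorem tM_iso (E : H ≃ₗᵢ[ℝ] H) (X Y : Fin n × Bool → Fin n × Bool → H) :
    tM A B (fun a b => E (X a b)) (fun a b => E (Y a b)) = tM A B X Y := by
  unfold tM
  simp only [LinearIsometryEquiv.inner_map_map]

theorem lM_zero (X : Fin n × Bool → Fin n × Bool → H) : lM (0 : Matrix (Fin n) (Fin n) ℂ) X = 0 := by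
  have := lM_smulM (M := (0 : Matrix (Fin n) (Fin n) ℂ)) 0 X
  rw [Complex.ofReal_zero, zero_smul, zero_smul] at this
  exact this

/-- the matrix of the quadratic form `ee` -/
theorem ee_EE (w : Matrix (Fin n) (Fin n) ℂ) (θ : Matrix (Fin n) (Fin q) ℂ) (α : Fin n → ℂ) :
    qf (EE w θ) α α = ee w θ α := by
  have key : ∀ k : Fin q, ∀ β : Fin n → ℂ,
      ((θ.updateCol k α)ᴴ * w⁻¹ * θ.updateCol k β).det =
      ∑ i, ∑ j, conj (α i) * β j * ((θ.updateCol k (Pi.single i 1))ᴴ * w⁻¹ *
        θ.updateCol k (Pi.single j 1)).det := by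
    intro k β
    -- linearity in the last argument
    have e1 : ∀ (N : Matrix (Fin q) (Fin n) ℂ) (β : Fin n → ℂ), (N * θ.updateCol k β).det =
        ∑ j, β j * (N * θ.updateCol k (Pi.single j 1)).det := by
      intro N β
      have e2 : ∀ β : Fin n → ℂ, N * θ.updateCol k β = (N * θ).updateCol k (N *ᵥ β) := by
        intro β
        ext i l
        by_cases h : l = k
        · subst h
          rw [Matrix.updateCol_self, Matrix.mul_apply]
          simp only [Matrix.updateCol_self]
          rfl
        · rw [Matrix.updateCol_ne h, Matrix.mul_apply, Matrix.mul_apply]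
          simp only [Matrix.updateCol_ne h]
      have e3 : N *ᵥ β = ∑ j, β j • (N *ᵥ Pi.single j 1) := by
        conv_lhs => rw [pi_eq_sum_univ' β]
        rw [Matrix.mulVec_sum]
        exact Finset.sum_congr rfl fun j _ => Matrix.mulVec_smul _ _ _
      rw [e2, e3]
      have e4 : ∀ s : Finset (Fin n), ((N * θ).updateCol k
          (∑ j ∈ s, β j • (N *ᵥ Pi.single j 1))).det =
          ∑ j ∈ s, β j * ((N * θ).updateCol k (N *ᵥ Pi.single j 1)).det := by
        classical
        intro s
        induction s using Finset.induction_on with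
        | empty =>
          rw [Finset.sum_empty, Finset.sum_empty]
          refine Matrix.det_eq_zero_of_column_eq_zero k fun i => ?_
          rw [Matrix.updateCol_self]
          rfl
        | insert j s hj ih =>
          rw [Finset.sum_insert hj, Finset.sum_insert hj, Matrix.det_updateCol_add,
            Matrix.det_updateCol_smul, ih]
      rw [e4]
      exact Finset.sum_congr rfl fun j _ => by rw [e2]
    have e5 : ∀ j, ((θ.updateCol k α)ᴴ * w⁻¹ * θ.updateCol k (Pi.single j 1)).det =
        ∑ i, conj (α i) * ((θ.updateCol k (Pi.single i 1))ᴴ * w⁻¹ *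
          θ.updateCol k (Pi.single j 1)).det := by
      intro j
      have e6 : ∀ γ : Fin n → ℂ, ((θ.updateCol k γ)ᴴ * w⁻¹ * θ.updateCol k (Pi.single j 1)).det =
          conj (((θ.updateCol k (Pi.single j 1))ᴴ * (w⁻¹)ᴴ * θ.updateCol k γ).det) := by
        intro γ
        rw [← RCLike.star_def, ← Matrix.det_conjTranspose]
        congr 1
        simp only [Matrix.conjTranspose_mul, Matrix.conjTranspose_conjTranspose, Matrix.mul_assoc]
      rw [e6, e1, map_sum]
      refine Finset.sum_congr rfl fun i _ => ?_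
      rw [map_mul, ← e6]
    rw [e1, Finset.sum_comm]
    refine Finset.sum_congr rfl fun j _ => ?_
    rw [e5, Finset.mul_sum]
    refine Finset.sum_congr rfl fun i _ => ?_
    ring
  unfold ee
  simp only [key]
  rw [← Complex.re_sum, qf]
  congr 1
  rw [dotProduct]
  simp only [Matrix.mulVec, dotProduct, EE, Matrix.of_apply, Finset.sum_mul, Finset.mul_sum,
    Pi.star_apply, RCLike.star_def]
  symm
  rw [Finset.sum_comm]
  refine Finset.sum_congr rfl fun i _ => ?_
  rw [Finset.sum_comm]
  refine Finset.sum_congr rfl fun j _ => ?_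
  refine Finset.sum_congr rfl fun k _ => ?_
  ring

end alg

end Vale.Agent.P284.H402.T
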