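import Vale.Agent.P284.H402.T.Seq
import Vale.Agent.P284.H661.T3.EscF
import Vale.Agent.P284.H551.V.Rel3

/-!
# P284, theorem T3 (helper402): the output of (A'') for Hilbert valued sections
-/

open scoped Manifold ContDiff Topology Pointwise ComplexConjugate ComplexOrder Matrix InnerProductSpace
open Filter Set Metric MeasureTheory

noncomputable section

namespace Vale.Agent.P284.H402.T

open Vale.Agent.P272.K Vale.Agent.P284.H894 Vale.Agent.P284.H894.G Vale.Agent.P284.H894.V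
  Vale.Agent.P284.H894.W Vale.Agent.P284.H402.A Vale.Agent.P284.H551 Vale.Agent.P284.H494
  Vale.Agent.P284.H213.Grp Vale.Agent.P284.H119.Kaz Vale.Agent.P284.H366 Vale.Agent.P284.H913.V
  Vale.Agent.P284.H248

/-- **The sequence of normalised solutions.** -/
theorem exists_seq {n : ℕ} {X : Type} [TopologicalSpace X] [T2Space X] [CompactSpace X]
    [ConnectedSpace X] [ChartedSpace (Cm n) X] [IsManifold 𝓘(ℂ, Cm n) ω X]
    {w : Chart n X → Cm n → Matrix (Fin n) (Fin n) ℂ}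
    {E Γ : Type} [TopologicalSpace E] [ConnectedSpace E] [Group Γ] [MulAction Γ E]
    {p : E → X} (hG : IsGalois Γ p) {C : Coc n Γ} (D : ECoc p C) (K : KM C)
    (hKw : ∀ a, K.w a = w (D.e a)) (P : PU C) {q : ℕ} (hq : 1 ≤ q) {F : E → Cm q} {c : Γ → Cm q}
    {B : ℝ} (hF : HolB p w F B) (hc : Eqv F c) (hreg : ∃ y, Reg (n := n) p F y)
    (hgen : GenConn (n := n) p F) (hlat : LatChar Γ q c) (N : Subgroup Γ) (hN : N.Normal)
    (hsub : ∀ g ∈ N, c g = 0)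
    (hfi : ∃ A : Set Γ, A.Finite ∧ ∀ g, c g = 0 → ∃ f ∈ A, f⁻¹ * g ∈ N) (hkaz : ¬ Kazhdan N)
    {ι : Type} [Fintype ι] (ζ : ι → Γ) (hζ : ∀ i g, ζ i * g = g * ζ i) :
    ∃ c₀ : ℝ, 0 < c₀ ∧ ∃ (W : ℕ → Type) (_ : ∀ k, NormedAddCommGroup (W k))
      (_ : ∀ k, InnerProductSpace ℝ (W k)) (_ : ∀ k, CompleteSpace (W k))
      (π : ∀ k, Γ →* (W k ≃ₗᵢ[ℝ] W k)) (u : ∀ k, Γ → C.I → Cm n → W k) (s : ℕ → ℝ)
      (m : ℕ → C.I → Cm n → ℝ),
      ∀ k, NW P K (hfF hG D K hKw hF hc hreg) (π k) ζ c₀ (1 / ((k : ℝ) + 1)) (u k) (s k) (m k) := by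
  obtain ⟨c₀, hc₀, h⟩ := appWStmt n q hq Γ C P K (hfF hG D K hKw hF hc hreg) ι ζ hζ
  refine ⟨c₀, hc₀, ?_⟩
  have key : ∀ k : ℕ, ∃ (W : Type) (_ : NormedAddCommGroup W) (_ : InnerProductSpace ℝ W)
      (_ : CompleteSpace W) (π : Γ →* (W ≃ₗᵢ[ℝ] W)) (u : Γ → C.I → Cm n → W) (s : ℝ)
      (m : C.I → Cm n → ℝ),
      NW P K (hfF hG D K hKw hF hc hreg) π ζ c₀ (1 / ((k : ℝ) + 1)) u s m := by
    intro k
    obtain ⟨η, hη, h1⟩ := h (1 / ((k : ℝ) + 1)) (by positivity)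
    obtain ⟨H, i1, i2, i3, π, ξ, hξ, hS, hinv⟩ := H338.Ind.exists_rep_lat hlat N hN hsub hfi hkaz
      ((C.N : Set Γ) ∪ range ζ) (C.N.finite_toSet.union (finite_range ζ)) hη
    have hesc : EscW P K (hfF hG D K hKw hF hc hreg) π :=
      H661.T3.escW_E hG D P K hKw hF ⟨⟨B, hF⟩, hc, hlat.disc⟩ hq hreg (conn_of_genConn hgen) π
        fun x hx => hinv x fun g hg => hx g (hsub g hg)
    obtain ⟨u, s, m, h2⟩ := exists_nw hζ (h1 H π hesc ξ hξ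
      (fun g hg => hS g (Or.inl hg)) fun i => hS (ζ i) (Or.inr ⟨i, rfl⟩))
    exact ⟨H, i1, i2, i3, π, u, s, m, h2⟩
  choose W i1 i2 i3 π u s m h2 using key
  exact ⟨W, i1, i2, i3, π, u, s, m, h2⟩

section
variable {n q : ℕ} {Γ : Type} [Group Γ] {C : Coc n Γ} {W : ℕ → Type}
  [∀ k, NormedAddCommGroup (W k)] [∀ k, InnerProductSpace ℝ (W k)]
  {π : ∀ k, Γ →* (W k ≃ₗᵢ[ℝ] W k)} {u : ∀ k, Γ → C.I → Cm n → W k}

/-- `q < n` -/
theorem q_lt {P : PU C} {K : KM C} {θ : HF C q} {W : Type} [NormedAddCommGroup W]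
    [InnerProductSpace ℝ W] {π : Γ →* (W ≃ₗᵢ[ℝ] W)} {u : Γ → C.I → Cm n → W} {ι : Type} [Fintype ι]
    {ζ : ι → Γ} {c₀ ε s : ℝ} {m : C.I → Cm n → ℝ} (h : NW P K θ π ζ c₀ ε u s m) : q < n := by
  by_contra hq
  have h0 : ∀ a, ∀ z ∈ C.Ω a, vW K θ 0 a (u 1 a) (u 1 a) z = 0 := by
    intro a z hz
    rw [← H551.Rel.dnV_vW K θ h.sec hz]
    have h1 : (fun J : Fin (q + 1) → Fin n =>
        vtf θ (fun γ a z => CW.inc W (u γ a z)) 1 a z (eJ J)) = fun _ => 0 := by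
      funext J
      obtain ⟨i, j, hij, he⟩ := Fintype.exists_ne_map_eq_of_card_lt J (by simp; omega)
      exact AlternatingMap.map_eq_zero_of_eq _ _ (by simp [eJ, he]) hij
    unfold dnV
    rw [h1]
    simp [hN]
  have h2 := h.one
  have h3 : enW P K θ 0 u u = BInt P K fun _ _ => 0 := BI_cg P K h0
  rw [h3] at h2
  simp [BInt] at h2

/-- all fields of `AOutV` but the flatness -/
theorem aOutV_nw (P : PU C) (K : KM C) (θ : HF C q) {F : Γ → C.I → Cm n → Cm q} {c : Γ → Cm q}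
    {ι : Type} [Fintype ι] {ζ : ι → Γ} (hζ : ∀ i g, ζ i * g = g * ζ i) {U : Ultrafilter ℕ}
    (hU : (U : Filter ℕ) ≤ atTop) {c₀ : ℝ} {s : ℕ → ℝ} {m : ℕ → C.I → Cm n → ℝ}
    (h : ∀ k, NW P K θ (π k) ζ c₀ (1 / ((k : ℝ) + 1)) (u k) (s k) (m k))
    (hflat : FlatV P K F c U fun k => vtf θ fun γ a z => CW.inc (W k) (u k γ a z)) :
    AOutV P K θ F c ζ U π u := by
  have h0 : Tendsto (fun k : ℕ => c₀ * (1 / ((k : ℝ) + 1))) U (𝓝 0) := by
    have h1 : Tendsto (fun k : ℕ => c₀ * (1 / ((k : ℝ) + 1))) atTop (𝓝 (c₀ * 0)) :=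
      tendsto_one_div_add_atTop_nhds_zero_nat.const_mul c₀
    rw [mul_zero] at h1
    exact h1.mono_left hU
  have hε : ∀ k : ℕ, (0 : ℝ) < 1 / ((k : ℝ) + 1) := fun k => by positivity
  refine H551.Rel.aOutV_of P K θ hζ (fun k => (h k).sec) (fun k => (h k).one) (fun k => (h k).bd)
    (fun k a z hz => ?_) ?_ (fun i => ?_) hflat
  · have h1 := (h k).dom a z hz
    linarith [h1.1, h1.2.1, h1.2.2]
  · exact squeeze_zero (fun k => (h k).m_nn) (fun k => (h k).m_le (hε k) hζ) h0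
  · exact squeeze_zero (fun k => (h k).t_nn (hζ i)) (fun k => (h k).tr_le (hε k) hζ i) h0

end

end Vale.Agent.P284.H402.T
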