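import Vale.Agent.P284.H402.T.Out
import Vale.Agent.P284.H15.V.FlatE

/-!
# P284, theorem T3 (helper402): the output of (A'') for Hilbert valued sections, conclusion
-/

open scoped Manifold ContDiff Topology Pointwise ComplexConjugate ComplexOrder Matrix InnerProductSpace
open Filter Set Metric MeasureTheory

noncomputable section

namespace Vale.Agent.P284.H402.T

open Vale.Agent.P272.K Vale.Agent.P284.H894 Vale.Agent.P284.H894.G Vale.Agent.P284.H894.V
  Vale.Agent.P284.H894.W Vale.Agent.P284.H402.A Vale.Agent.P284.H551 Vale.Agent.P284.H494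
  Vale.Agent.P284.H213.Grp Vale.Agent.P284.H119.Kaz Vale.Agent.P284.H366 Vale.Agent.P284.H913.V
  Vale.Agent.P284.H248

/-- **(A'')** for Hilbert valued sections -/
theorem aOutVStmt : AOutVStmt := by
  intro n X _ _ _ _ _ _ w hw E Γ _ _ _ _ p hG C D K hKw P q hq F c B hF hc hreg hgen hlat N hN
    hsub hfi hkaz ι _ ζ hζ U hU
  obtain ⟨c₀, hc₀, W, i1, i2, i3, π, u, s, m, h⟩ := exists_seq hG D K hKw P hq hF hc hreg hgen hlat
    N hN hsub hfi hkaz ζ hζ
  refine ⟨W, i1, i2, i3, π, u, ?_⟩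
  have hε : ∀ k : ℕ, (0 : ℝ) < 1 / ((k : ℝ) + 1) := fun k => by positivity
  have hlim : Tendsto (fun k : ℕ => 1 / ((k : ℝ) + 1)) U (𝓝 0) :=
    tendsto_one_div_add_atTop_nhds_zero_nat.mono_left hU
  exact aOutV_nw P K _ hζ hU h (H15.V.flatV_E hG D K hKw P hF hc hreg hlat π u
    (fun k => (h k).sec) (fun k => (h k).one) ζ hε hlim fun k => ⟨s k, m k, (h k).hs, (h k).bd,
      (h k).dom, by
        rw [(h k).one, mul_one]
        exact (h k).ineq⟩)

end Vale.Agent.P284.H402.T
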