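import Vale.Agent.P284.H402.T.Loc

/-!
# P284, theorem T3 (A'')_W (helper402): smoothness, change of coordinates, pointwise inequalities
-/

open scoped Manifold ContDiff Topology Pointwise ComplexConjugate ComplexOrder Matrix InnerProductSpace
open Filter Set Metric MeasureTheory

noncomputable section

namespace Vale.Agent.P284.H402.T

open Vale.Agent.P272.K Vale.Agent.P272.K.C2 Vale.Agent.P284.H248 Vale.Agent.P284.H894
  Vale.Agent.P284.H894.G Vale.Agent.P284.H894.V Vale.Agent.P284.H913.V Vale.Agent.P284.H402.A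
  Vale.Agent.P284.H359.V Vale.Agent.P284.H639.V

open Vale.Agent.P284.H287.T (dH ddH Sec cmp Good exists_good exists_good₂ grH lapH hhH
  cmp_contDiffAt sg ddH_cmp dH_cmp)

section loc
variable {n q : ℕ} {H : Type} [NormedAddCommGroup H] [InnerProductSpace ℝ H]
  {f h f' h' : Cm n → H} {z : Cm n}

/-! ### Smoothness -/

theorem sm_cwM {M : Cm n → Matrix (Fin n) (Fin n) ℂ} (hM : MC ∞ M z) (a b : Fin n × Bool) :
    ContDiffAt ℝ ∞ (fun y => cwM (M y) a b) z :=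
  (H119.T.cf_smooth (hM b.1 a.1) a.2 b.2).div_const 4

theorem sm_gM {M : Cm n → Matrix (Fin n) (Fin n) ℂ} (hM : MC ∞ M z) (hf : ContDiffAt ℝ ∞ f z)
    (hh : ContDiffAt ℝ ∞ h z) : ContDiffAt ℝ ∞ (fun y => gM (M y) (dH f y) (dH h y)) z := by
  unfold gM
  refine ContDiffAt.sum fun a _ => ContDiffAt.sum fun b _ => ?_
  exact (sm_cwM hM a b).mul ((H119.T.dH_smooth hf a).inner ℝ (H119.T.dH_smooth hh b))

theorem sm_lM {M : Cm n → Matrix (Fin n) (Fin n) ℂ} (hM : MC ∞ M z) (hf : ContDiffAt ℝ ∞ f z) :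
    ContDiffAt ℝ ∞ (fun y => lM (M y) (ddH f y)) z := by
  unfold lM
  refine ContDiffAt.sum fun a _ => ContDiffAt.sum fun b _ => ?_
  exact (sm_cwM hM a b).smul (H119.T.ddH_smooth hf a b)

theorem sm_tM {A B : Cm n → Matrix (Fin n) (Fin n) ℂ} (hA : MC ∞ A z) (hB : MC ∞ B z)
    (hf : ContDiffAt ℝ ∞ f z) (hh : ContDiffAt ℝ ∞ h z) :
    ContDiffAt ℝ ∞ (fun y => tM (A y) (B y) (ddH f y) (ddH h y)) z := by
  unfold tM
  refine ContDiffAt.sum fun a _ => ContDiffAt.sum fun b _ => ContDiffAt.sum fun c _ =>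
    ContDiffAt.sum fun d _ => ?_
  refine ContDiffAt.mul ?_ ((H119.T.ddH_smooth hf a b).inner ℝ (H119.T.ddH_smooth hh c d))
  refine contDiffAt_const.mul ?_
  exact re_smooth ((((hA _ _).mul (hB _ _)).mul contDiffAt_const).mul contDiffAt_const)

/-! ### Change of coordinates -/

variable {T : Cm n → Cm n}

theorem cmp_ev (e : ∀ᶠ y in 𝓝 z, f y = f' (T y)) (η : H) :
    ∀ᶠ y in 𝓝 z, cmp f η y = cmp f' η (T y) := by
  filter_upwards [e] with y hy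
  unfold H287.T.cmp; rw [hy]

theorem gM_chg {M M' : Matrix (Fin n) (Fin n) ℂ} (hT : DifferentiableAt ℂ T z)
    (hM : (jmat T z).map (starRingEnd ℂ) * M * (jmat T z)ᵀ = M')
    (hf : ContDiffAt ℝ ∞ f z) (hh : ContDiffAt ℝ ∞ h z)
    (hf' : ContDiffAt ℝ ∞ f' (T z)) (hh' : ContDiffAt ℝ ∞ h' (T z))
    (e : ∀ᶠ y in 𝓝 z, f y = f' (T y)) (e' : ∀ᶠ y in 𝓝 z, h y = h' (T y)) :
    gM M (dH f z) (dH h z) = gM M' (dH f' (T z)) (dH h' (T z)) := by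
  obtain ⟨m, b, h1, h2⟩ := exists_good₂ f z f' (T z)
  rw [Good_gM h1 M (hf.differentiableAt (by simp)) (hh.differentiableAt (by simp)),
    Good_gM h2 M' (hf'.differentiableAt (by simp)) (hh'.differentiableAt (by simp))]
  refine Finset.sum_congr rfl fun i _ => ?_
  have k1 : A.pd (cmp f (b i)) z = (jmat T z)ᵀ *ᵥ A.pd (cmp f' (b i)) (T z) :=
    H730.V.dd_comp hT ((cmp_contDiffAt hf' _).differentiableAt (by simp)) (cmp_ev e _)
  have k2 : A.pd (cmp h (b i)) z = (jmat T z)ᵀ *ᵥ A.pd (cmp h' (b i)) (T z) :=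
    H730.V.dd_comp hT ((cmp_contDiffAt hh' _).differentiableAt (by simp)) (cmp_ev e' _)
  rw [k1, k2, qf_inv hM]

theorem lM_chg {M M' : Matrix (Fin n) (Fin n) ℂ} (hT : ∀ᶠ y in 𝓝 z, DifferentiableAt ℂ T y)
    (hM : (jmat T z).map (starRingEnd ℂ) * M * (jmat T z)ᵀ = M')
    (hf : ContDiffAt ℝ ∞ f z) (hf' : ContDiffAt ℝ ∞ f' (T z))
    (e : ∀ᶠ y in 𝓝 z, f y = f' (T y)) :
    lM M (ddH f z) = lM M' (ddH f' (T z)) := by
  refine ext_inner_right ℝ fun η => ?_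
  rw [inner_lM_cmp M (hf.of_le H639.V.two_le), inner_lM_cmp M' (hf'.of_le H639.V.two_le),
    H730.V.cHess_comp hT (cmp_contDiffAt hf' η) (cmp_ev e η), tr1_inv hM]

theorem tM_chg {A A' B B' : Matrix (Fin n) (Fin n) ℂ} (hT : ∀ᶠ y in 𝓝 z, DifferentiableAt ℂ T y)
    (hA : (jmat T z).map (starRingEnd ℂ) * A * (jmat T z)ᵀ = A')
    (hB : (jmat T z).map (starRingEnd ℂ) * B * (jmat T z)ᵀ = B')
    (hf : ContDiffAt ℝ ∞ f z) (hf' : ContDiffAt ℝ ∞ f' (T z))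
    (e : ∀ᶠ y in 𝓝 z, f y = f' (T y)) :
    tM A B (ddH f z) (ddH f z) = tM A' B' (ddH f' (T z)) (ddH f' (T z)) := by
  obtain ⟨m, b, h1, h2⟩ := exists_good₂ f z f' (T z)
  rw [Good_tM' h1 A B (hf.of_le H639.V.two_le), Good_tM' h2 A' B' (hf'.of_le H639.V.two_le)]
  refine Finset.sum_congr rfl fun i _ => ?_
  rw [H730.V.cHess_comp hT (cmp_contDiffAt hf' (b i)) (cmp_ev e (b i)), tr2_inv hA hB]

/-! ### Pointwise inequalities -/

variable {w : Matrix (Fin n) (Fin n) ℂ} {θ : Matrix (Fin n) (Fin q) ℂ} {δ : ℝ}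

theorem herm_c (hf : ContDiffAt ℝ ∞ f z) (η : H) : (cHess (cmp f η) z).IsHermitian :=
  C2.cHess_isHermitian ((cmp_contDiffAt hf η).of_le H639.V.two_le)

theorem gM_nonneg {M : Matrix (Fin n) (Fin n) ℂ} (hM : M.PosSemidef) (hf : DifferentiableAt ℝ f z) :
    0 ≤ gM M (dH f z) (dH f z) := by
  obtain ⟨m, e, he⟩ := exists_good f z
  rw [Good_gM he M hf hf]
  exact Finset.sum_nonneg fun i _ => qf_nonneg hM _

theorem tM_nonneg {A B : Matrix (Fin n) (Fin n) ℂ} (hA : A.PosSemidef) (hB : B.PosSemidef)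
    (hf : ContDiffAt ℝ ∞ f z) : 0 ≤ tM A B (ddH f z) (ddH f z) := by
  obtain ⟨m, e, he⟩ := exists_good f z
  rw [Good_tM' he A B (hf.of_le H639.V.two_le)]
  exact Finset.sum_nonneg fun i _ => tr2_nonneg hA hB (herm_c hf _)

theorem pt_low (hA : A.A2Stmt) (hw : w.PosDef) (hδ : 0 ≤ δ) (hf : DifferentiableAt ℝ f z) :
    0 ≤ gM (EE w θ) (dH f z) (dH f z) ∧
    gM (AA w θ 0) (dH f z) (dH f z) + δ * gM (EE w θ) (dH f z) (dH f z) ≤
      gM (AA w θ δ) (dH f z) (dH f z) := by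
  obtain ⟨m, e, he⟩ := exists_good f z
  rw [Good_gM he _ hf hf, Good_gM he _ hf hf, Good_gM he _ hf hf]
  simp only [ee_EE]
  refine ⟨Finset.sum_nonneg fun i _ => (hA.low w θ δ hw hδ _).1, ?_⟩
  rw [Finset.mul_sum, ← Finset.sum_add_distrib]
  exact Finset.sum_le_sum fun i _ => (hA.low w θ δ hw hδ _).2

theorem pt_up (hA : A.A2Stmt) (q : ℕ) (Λ : ℝ) : ∃ c : ℝ, 0 < c ∧ ∀ {n : ℕ}
    (w : Matrix (Fin n) (Fin n) ℂ) (θ : Matrix (Fin n) (Fin q) ℂ) (δ : ℝ), w.PosDef → 0 ≤ δ →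
    δ ≤ 1 → ((Λ : ℂ) • (1 : Matrix (Fin q) (Fin q) ℂ) - θᴴ * w⁻¹ * θ).PosSemidef →
    DD w θ δ ≤ c ∧ DD w θ δ ≤ DD w θ 0 + c * δ ∧
    ∀ {H : Type} [NormedAddCommGroup H] [InnerProductSpace ℝ H] {f : Cm n → H} {z : Cm n},
      DifferentiableAt ℝ f z →
      gM (AA w θ δ) (dH f z) (dH f z) ≤ c * gM w⁻¹ (dH f z) (dH f z) ∧
      gM (AA w θ δ) (dH f z) (dH f z) ≤ gM (AA w θ 0) (dH f z) (dH f z) +
        c * δ * gM w⁻¹ (dH f z) (dH f z) := by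
  obtain ⟨c, hc, h⟩ := hA.up q Λ
  refine ⟨c, hc, fun {n} w θ δ hw hδ hδ1 hΛ => ?_⟩
  obtain ⟨h1, h2, h3⟩ := h w θ δ hw hδ hδ1 hΛ
  refine ⟨h1, h2, fun {H} _ _ {f} {z} hf => ?_⟩
  obtain ⟨m, e, he⟩ := exists_good f z
  rw [Good_gM he _ hf hf, Good_gM he _ hf hf, Good_gM he _ hf hf]
  constructor
  · rw [Finset.mul_sum]
    exact Finset.sum_le_sum fun i _ => (h3 _).1
  · rw [Finset.mul_sum, ← Finset.sum_add_distrib]
    exact Finset.sum_le_sum fun i _ => (h3 _).2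

theorem pt_tr (hA : A.A2Stmt) (hw : w.PosDef) (hδ : 0 ≤ δ) (hf : ContDiffAt ℝ ∞ f z) :
    0 ≤ tM (AA w θ δ) (AA w θ δ) (ddH f z) (ddH f z) ∧
    tM (AA w θ δ) (AA w θ δ) (ddH f z) (ddH f z) ≤
      DD w θ δ ^ 2 * tM w⁻¹ w⁻¹ (ddH f z) (ddH f z) ∧
    ‖lM (AA w θ δ) (ddH f z)‖ ^ 2 ≤ n * tM (AA w θ δ) (AA w θ δ) (ddH f z) (ddH f z) := by
  obtain ⟨m, e, he⟩ := exists_good f z
  have hf2 : ContDiffAt ℝ 2 f z := hf.of_le H639.V.two_le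
  have hx : ∀ i, (cHess (cmp f (e i)) z).IsHermitian := fun i => herm_c hf _
  rw [Good_lM_sq he _ hf2, Good_tM' he _ _ hf2, Good_tM' he _ _ hf2]
  refine ⟨Finset.sum_nonneg fun i _ => (hA.tr_nonneg w θ δ _ hw hδ (hx i)).2.1, ?_, ?_⟩
  · rw [Finset.mul_sum]
    exact Finset.sum_le_sum fun i _ => (hA.tr_nonneg w θ δ _ hw hδ (hx i)).2.2.1
  · rw [Finset.mul_sum]
    exact Finset.sum_le_sum fun i _ => (hA.tr_nonneg w θ δ _ hw hδ (hx i)).2.2.2.2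

theorem pt_tr0 (hA : A.A2Stmt) (hw : w.PosDef) (hδ : 0 < δ) (hf : ContDiffAt ℝ ∞ f z) :
    ‖lM (AA w θ 0) (ddH f z)‖ ^ 2 ≤
      n * (DD w θ 0 * DD w θ δ * tM (WW w θ δ)⁻¹ (WW w θ δ)⁻¹ (ddH f z) (ddH f z)) := by
  obtain ⟨m, e, he⟩ := exists_good f z
  have hf2 : ContDiffAt ℝ 2 f z := hf.of_le H639.V.two_le
  rw [Good_lM_sq he _ hf2, Good_tM' he _ _ hf2, Finset.mul_sum, Finset.mul_sum]
  exact Finset.sum_le_sum fun i _ => hA.tr_zero w θ δ _ hw hδ (herm_c hf _)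

theorem pt_main (hM : A2MainStmt) (hq : 0 < q) (Λ : ℝ) : ∃ c : ℝ, 0 < c ∧ ∀ {n : ℕ}
    (w : Matrix (Fin n) (Fin n) ℂ) (θ : Matrix (Fin n) (Fin q) ℂ) (δ : ℝ)
    {H : Type} [NormedAddCommGroup H] [InnerProductSpace ℝ H] {f : Cm n → H} {z : Cm n},
    w.PosDef → 0 < δ → δ ≤ 1 → ContDiffAt ℝ ∞ f z →
    ((Λ : ℂ) • (1 : Matrix (Fin q) (Fin q) ℂ) - θᴴ * w⁻¹ * θ).PosSemidef →
    c * δ * (tM (AA w θ 0) w⁻¹ (ddH f z) (ddH f z) +
      tM (AA w θ 0) (BB w θ) (ddH f z) (ddH f z)) +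
      tM (AA w θ 0) (AA w θ 0) (ddH f z) (ddH f z) / DD w θ 0 ≤
      DD w θ δ * tM (WW w θ δ)⁻¹ (WW w θ δ)⁻¹ (ddH f z) (ddH f z) := by
  obtain ⟨c, hc, h⟩ := hM q Λ hq
  refine ⟨c, hc, fun {n} w θ δ {H} _ _ {f} {z} hw hδ hδ1 hf hΛ => ?_⟩
  obtain ⟨m, e, he⟩ := exists_good f z
  have hf2 : ContDiffAt ℝ 2 f z := hf.of_le H639.V.two_le
  rw [Good_tM' he _ _ hf2, Good_tM' he _ _ hf2, Good_tM' he _ _ hf2, Good_tM' he _ _ hf2,
    ← Finset.sum_add_distrib, Finset.mul_sum, Finset.mul_sum, Finset.sum_div,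
    ← Finset.sum_add_distrib]
  exact Finset.sum_le_sum fun i _ => h w θ δ _ hw hδ hδ1 (herm_c hf _) hΛ

/-- the Kähler density `D_δ (|ℓ|² - |x|²)` -/
def QW (w : Matrix (Fin n) (Fin n) ℂ) (θ : Matrix (Fin n) (Fin q) ℂ) (δ : ℝ) (f : Cm n → H)
    (z : Cm n) : ℝ :=
  (‖lM (AA w θ δ) (ddH f z)‖ ^ 2 - tM (AA w θ δ) (AA w θ δ) (ddH f z) (ddH f z)) / DD w θ δ

theorem QW_sum {m : ℕ} {e : Fin m → H} (he : Good f z e) (hf : ContDiffAt ℝ ∞ f z) (δ : ℝ) :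
    QW w θ δ f z = ∑ i, QQ w θ δ (cHess (cmp f (e i)) z) := by
  have hf2 : ContDiffAt ℝ 2 f z := hf.of_le H639.V.two_le
  rw [QW, Good_lM_sq he _ hf2, Good_tM' he _ _ hf2, ← Finset.sum_sub_distrib, Finset.sum_div]
  rfl

theorem num_absW (hA : A.A2Stmt) (hw : w.PosDef) (hδ : 0 ≤ δ) (hf : ContDiffAt ℝ ∞ f z) :
    |‖lM (AA w θ δ) (ddH f z)‖ ^ 2 - tM (AA w θ δ) (AA w θ δ) (ddH f z) (ddH f z)| ≤
      (n + 1) * DD w θ δ ^ 2 * tM w⁻¹ w⁻¹ (ddH f z) (ddH f z) := by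
  obtain ⟨h1, h2, h3⟩ := pt_tr (θ := θ) hA hw hδ hf
  have hn : (0 : ℝ) ≤ n := Nat.cast_nonneg n
  have h6 : |‖lM (AA w θ δ) (ddH f z)‖ ^ 2 - tM (AA w θ δ) (AA w θ δ) (ddH f z) (ddH f z)| ≤
      (n + 1) * tM (AA w θ δ) (AA w θ δ) (ddH f z) (ddH f z) := by
    rw [abs_le]
    constructor
    · nlinarith [sq_nonneg ‖lM (AA w θ δ) (ddH f z)‖, mul_nonneg hn h1]
    · nlinarith [mul_nonneg hn h1]
  refine h6.trans ?_
  calc (n + 1 : ℝ) * tM (AA w θ δ) (AA w θ δ) (ddH f z) (ddH f z) ≤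
      (n + 1) * (DD w θ δ ^ 2 * tM w⁻¹ w⁻¹ (ddH f z) (ddH f z)) :=
        mul_le_mul_of_nonneg_left h2 (by linarith)
    _ = _ := by ring

theorem DD_nn (hA : A.A2Stmt) (hw : w.PosDef) (hδ : 0 ≤ δ) : 0 ≤ DD w θ δ :=
  (hA.DD_nonneg w θ δ hw hδ).1.trans (hA.DD_nonneg w θ δ hw hδ).2.1

theorem QW_abs (hA : A.A2Stmt) (hw : w.PosDef) (hδ : 0 ≤ δ) (hf : ContDiffAt ℝ ∞ f z) :
    |QW w θ δ f z| ≤ (n + 1) * DD w θ δ * tM w⁻¹ w⁻¹ (ddH f z) (ddH f z) := by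
  have hD : 0 ≤ DD w θ δ := DD_nn hA hw hδ
  rcases hD.eq_or_lt with h0 | h0
  · rw [QW, ← h0]; simp
  · rw [QW, abs_div, abs_of_pos h0, div_le_iff₀ h0]
    calc _ ≤ _ := num_absW hA hw hδ hf
      _ = _ := by ring

theorem tendsto_QW (hA : A.A2Stmt) (hw : w.PosDef) (hf : ContDiffAt ℝ ∞ f z) {d : ℕ → ℝ}
    (hd : ∀ k, 0 ≤ d k) (hlim : Tendsto d atTop (𝓝 0)) :
    Tendsto (fun k => QW w θ (d k) f z) atTop (𝓝 (QW w θ 0 f z)) := by
  obtain ⟨m, e, he⟩ := exists_good f z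
  simp only [QW_sum he hf]
  exact tendsto_finsetSum _ fun i _ => tendsto_QQ hA hw (herm_c hf _) hd hlim

theorem cont_cwM {M : ℝ → Matrix (Fin n) (Fin n) ℂ} (hM : Continuous M) (a b : Fin n × Bool) :
    Continuous fun δ => cwM (M δ) a b := by
  have h1 : Continuous fun δ => M δ b.1 a.1 := hM.matrix_elem _ _
  obtain ⟨j, α⟩ := a
  obtain ⟨k, β⟩ := b
  unfold cwM cf
  cases α <;> cases β <;> simp only [if_true, if_false, reduceCtorEq, Bool.false_eq_true]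
  · exact (Complex.continuous_re.comp h1).div_const 4
  · exact (Complex.continuous_im.comp h1).neg.div_const 4
  · exact (Complex.continuous_im.comp h1).div_const 4
  · exact (Complex.continuous_re.comp h1).div_const 4

theorem cont_gM {M : ℝ → Matrix (Fin n) (Fin n) ℂ} (hM : Continuous M)
    (x y : Fin n × Bool → H) : Continuous fun δ => gM (M δ) x y := by
  unfold gM
  exact continuous_finsetSum _ fun a _ => continuous_finsetSum _ fun b _ =>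
    (cont_cwM hM a b).mul continuous_const

theorem cont_lM {M : ℝ → Matrix (Fin n) (Fin n) ℂ} (hM : Continuous M)
    (X : Fin n × Bool → Fin n × Bool → H) : Continuous fun δ => lM (M δ) X := by
  unfold lM
  exact continuous_finsetSum _ fun a _ => continuous_finsetSum _ fun b _ =>
    (cont_cwM hM a b).smul continuous_const

theorem gM_abs {M : Matrix (Fin n) (Fin n) ℂ} (hM : M.PosSemidef) (hf : DifferentiableAt ℝ f z)
    (hh : DifferentiableAt ℝ h z) : |gM M (dH f z) (dH h z)| ≤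
      (gM M (dH f z) (dH f z) + gM M (dH h z) (dH h z)) / 2 := by
  obtain ⟨m, e, h1, h2⟩ := exists_good₂ f z h z
  rw [Good_gM h1 _ hf hh, Good_gM h1 _ hf hf, Good_gM h2 _ hh hh, ← Finset.sum_add_distrib,
    Finset.sum_div]
  exact (Finset.abs_sum_le_sum_abs _ _).trans (Finset.sum_le_sum fun i _ => qf_le hM _ _)

end loc

end Vale.Agent.P284.H402.T
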