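import Vale.Agent.P284.H402.T.Fin

/-!
# P284, theorem T3 (A'')_W (helper402): start vector, escape for small `δ`, selection, conclusion
-/

open scoped Manifold ContDiff Topology Pointwise ComplexConjugate ComplexOrder Matrix InnerProductSpace
open Filter Set Metric MeasureTheory

noncomputable section

namespace Vale.Agent.P284.H402.T

open Vale.Agent.P272.K Vale.Agent.P272.K.C2 Vale.Agent.P284.H248 Vale.Agent.P284.H894
  Vale.Agent.P284.H894.G Vale.Agent.P284.H894.V Vale.Agent.P284.H913.V Vale.Agent.P284.H402.A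
  Vale.Agent.P284.H359.V

open Vale.Agent.P284.H639.V (isOpen_Ω V_sub_Ω O_sub_Ω T_mem_Ω)
open Vale.Agent.P284.H639.T6 (fx fx_sec fx_energy av av_sub_le BInt_one_pos)
open Vale.Agent.P284.H66.S7 (BInt_congr BInt_smul)
open Vale.Agent.P284.H977.T (BInt_mono' BInt_comb' SM ipT LT LF LF_mem LT_val ipT_apply dH_add
  dH_smul ipT_self ipT_symm ipT_nonneg)

open Vale.Agent.P284.H287.T (dH ddH Sec cmp Good exists_good exists_good₂ grH lapH hhH
  cmp_contDiffAt sg ddH_cmp dH_cmp lapH_iso)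

section glob
variable {n q : ℕ} {Γ : Type} [Group Γ] {C : Coc n Γ} {H : Type} [NormedAddCommGroup H]
  [InnerProductSpace ℝ H] {P : PU C} {K : KM C} {θ : HF C q} {π : Γ →* (H ≃ₗᵢ[ℝ] H)}
  {u v : Γ → C.I → Cm n → H} {δ : ℝ}

/-! ### Central elements -/

theorem sec_cen {c : Γ} (hc : ∀ g, c * g = g * c) (hu : Sec C π 0 u) :
    Sec C π 0 (fun γ a z => π c (u γ a z)) where
  smooth γ a z hz := (π c).contDiff.contDiffAt.comp z (hu.smooth γ a z hz)
  compat γ a b z hz := by rw [hu.compat γ a b z hz]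
  equi g γ a z hz := by
    rw [hu.equi g γ a z hz, Pi.zero_apply, add_zero, add_zero]
    have h1 : π c (π g (u γ a z)) = (π c * π g) (u γ a z) := rfl
    have h2 : π g (π c (u γ a z)) = (π g * π c) (u γ a z) := rfl
    rw [h1, h2, ← map_mul, ← map_mul, hc]

/-- `T_c` -/
def TL (C : Coc n Γ) (π : Γ →* (H ≃ₗᵢ[ℝ] H)) {c : Γ} (hc : ∀ g, c * g = g * c) :
    SM C π →ₗ[ℝ] SM C π where
  toFun s := ⟨fun γ a z => π c (s.1 γ a z), sec_cen hc s.2⟩
  map_add' s v := by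
    apply Subtype.ext
    funext γ a z
    exact map_add (π c) _ _
  map_smul' r s := by
    apply Subtype.ext
    funext γ a z
    exact map_smul (π c) _ _

theorem TL_sub {c : Γ} (hc : ∀ g, c * g = g * c) (s : SM C π) :
    (TL C π hc s - s).1 = trW π c s.1 := rfl

theorem TL_LL {c : Γ} (hc : ∀ g, c * g = g * c) (hδ : 0 < δ) (s : SM C π) :
    TL C π hc (LL K θ π hδ s) = LL K θ π hδ (TL C π hc s) := by
  apply Subtype.ext
  funext γ a z
  show π c (LF (KW K θ δ hδ) s.1 γ a z) = LF (KW K θ δ hδ) (fun γ a z => π c (s.1 γ a z)) γ a z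
  by_cases hz : z ∈ C.Ω a
  · rw [LF_mem hz, LF_mem hz]
    have := lapH_iso ((KW K θ δ hδ).w a) (π c) 0 (s.1 γ a) z
    simp only [add_zero] at this
    exact this.symm
  · rw [LF, LF, indicator_of_notMem hz, indicator_of_notMem hz, map_zero]

theorem ip_TL {c : Γ} (hc : ∀ g, c * g = g * c) (hδ : 0 < δ) (s : SM C π) :
    ipL P K θ π hδ (TL C π hc s) (TL C π hc s) ≤ ipL P K θ π hδ s s := by
  rw [ipL_apply, ipL_apply]
  refine le_of_eq (BI_cg P K fun a z _ => ?_)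
  show dD K θ δ a z * ⟪π c (s.1 1 a z), π c (s.1 1 a z)⟫_ℝ = _
  rw [LinearIsometryEquiv.inner_map_map]

/-! ### The start vector -/

theorem bd_dD (K : KM C) (θ : HF C q) (δ : ℝ) : BD C (dD K θ δ) where
  cont := dD_cont K θ δ
  compat _ _ _ hz _ _ := dD_inv K θ δ hz

theorem int_dD_pos (hA : A.A2Stmt) (P : PU C) (K : KM C) (θ : HF C q) :
    0 < BInt P K (dD K θ 0) := by
  obtain ⟨a, z, hz, hne⟩ := exists_D hA K θ
  have h0 : ∀ a, ∀ z ∈ C.Ω a, 0 ≤ dD K θ 0 a z := fun a z hz => dD_nn hA K θ le_rfl hz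
  refine lt_of_lt_of_le ?_ ((bd_dD K θ 0).le P K h0 a)
  set g : Cm n → ℝ := fun y => dD K θ 0 a y * vol (K.w a) y with hg
  have hV : IsOpen (C.V a) := H913.V.isOpen_V C a
  have hgc : ContinuousOn g (C.V a) :=
    ((dD_cont K θ 0 a).mul (vol_cont K a)).mono (H913.V.V_sub C a)
  have hg0 : ∀ y ∈ C.V a, 0 ≤ g y := fun y hy =>
    mul_nonneg (h0 a y (V_sub_Ω C a hy)) (vol_nn K (H913.V.V_sub C a hy))
  have hgz : 0 < g z := by
    have h1 := (h0 a z (V_sub_Ω C a hz)).lt_of_ne (Ne.symm hne)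
    exact mul_pos h1 (K.lam_pos.trans_le (K.vol_low a z (V_sub_Ω C a hz)))
  have hev : ∀ᶠ y in 𝓝 z, g z / 2 < g y ∧ y ∈ C.V a :=
    ((hgc.continuousAt (hV.mem_nhds hz)).eventually (lt_mem_nhds (by linarith))).and
      (hV.mem_nhds hz)
  obtain ⟨r, hr, hb⟩ := Metric.eventually_nhds_iff_ball.1 hev
  have hi : IntegrableOn g (C.V a) := (bd_dD K θ 0).int_vol K a
  have hbV : ball z r ⊆ C.V a := fun y hy => (hb y hy).2
  have h2 : ∫ y in ball z r, g z / 2 ≤ ∫ y in ball z r, g y :=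
    setIntegral_mono_on (integrableOn_const measure_ball_lt_top.ne) (hi.mono_set hbV)
      measurableSet_ball fun y hy => (hb y hy).1.le
  have h3 : ∫ y in ball z r, g y ≤ ∫ y in C.V a, g y := by
    refine setIntegral_mono_set hi ?_ hbV.eventuallyLE
    filter_upwards [ae_restrict_mem hV.measurableSet] with y hy using hg0 y hy
  refine lt_of_lt_of_le ?_ (h2.trans h3)
  rw [setIntegral_const, smul_eq_mul]
  refine mul_pos ?_ (by linarith)
  exact ENNReal.toReal_pos (measure_ball_pos _ _ hr).ne' measure_ball_lt_top.ne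

/-- **the start vector** -/
theorem start (hA : A.A2Stmt) (P : PU C) (K : KM C) (θ : HF C q) {ι : Type} [Fintype ι]
    (c : ι → Γ) (hc : ∀ i g, c i * g = g * c i) {ε : ℝ} (hε : 0 < ε) :
    ∃ η : ℝ, 0 < η ∧ ∀ (H : Type) [NormedAddCommGroup H] [InnerProductSpace ℝ H]
      (π : Γ →* (H ≃ₗᵢ[ℝ] H)) (ξ : H), ‖ξ‖ = 1 → (∀ g ∈ C.N, ‖π g ξ - ξ‖ ≤ η) →
      (∀ i, ‖π (c i) ξ - ξ‖ ≤ η) → ∃ f : SM C π, 0 < ipW P K θ 0 f.1 f.1 ∧
        BInt P K (fun a z => grH (K.w a) (f.1 1 a) (f.1 1 a) z) +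
          ∑ i, BInt P K (fun a z => ‖(TL C π (hc i) f - f).1 1 a z‖ ^ 2) ≤
          ε * ipW P K θ 0 f.1 f.1 := by
  obtain ⟨A, hA0, hAe⟩ := fx_energy P K
  set d₀ := BInt P K (dD K θ 0) with hd₀
  have hd0 : 0 < d₀ := int_dD_pos hA P K θ
  set B1 := BInt P K (fun _ _ => (1 : ℝ)) with hB1
  have hB1p : 0 < B1 := BInt_one_pos P K
  set R : ℝ := A + Fintype.card ι * B1 + 1 with hR
  have hRp : 0 < R := by positivity
  refine ⟨min (1 / 2) (√(ε * d₀ / (4 * R))), lt_min (by norm_num) (Real.sqrt_pos.2 (by positivity)),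
    fun H _ _ π ξ hξ h1 h2 => ?_⟩
  set η := min (1 / 2) (√(ε * d₀ / (4 * R))) with hη
  have hη0 : 0 < η := lt_min (by norm_num) (Real.sqrt_pos.2 (by positivity))
  have hη1 : η ≤ 1 / 2 := min_le_left _ _
  have hη2 : η ^ 2 ≤ ε * d₀ / (4 * R) := by
    calc η ^ 2 ≤ (√(ε * d₀ / (4 * R))) ^ 2 := pow_le_pow_left₀ hη0.le (min_le_right _ _) 2
      _ = _ := Real.sq_sqrt (by positivity)
  set f : SM C π := ⟨fx P π ξ, fx_sec P π ξ⟩ with hf
  have hclose : ∀ a, ∀ z ∈ C.V a, ‖fx P π ξ 1 a z - ξ‖ ≤ η := by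
    intro a z hz
    have := av_sub_le P (φ := fun g => π g ξ) (γ := 1) (δ := η)
      (fun s hs => by simpa using h1 s hs) hz
    have e : π 1 ξ = ξ := by rw [map_one]; rfl
    simp only [e] at this
    exact this
  have hlow : ∀ a, ∀ z ∈ C.V a, 1 / 4 ≤ ‖fx P π ξ 1 a z‖ ^ 2 := by
    intro a z hz
    have h3 := hclose a z hz
    have h4 : ‖ξ‖ ≤ ‖fx P π ξ 1 a z - ξ‖ + ‖fx P π ξ 1 a z‖ := by
      have := norm_sub_le (fx P π ξ 1 a z) (fx P π ξ 1 a z - ξ)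
      rw [sub_sub_cancel] at this
      linarith
    rw [hξ] at h4
    have h5 : 1 / 2 ≤ ‖fx P π ξ 1 a z‖ := by linarith
    nlinarith
  have hip : d₀ / 4 ≤ ipW P K θ 0 f.1 f.1 := by
    have e : d₀ / 4 = BInt P K (fun a z => (1 / 4) * dD K θ 0 a z) := by
      rw [BInt_smul, ← hd₀]; ring
    rw [e]
    refine BInt_mono' P K ((co_dD K θ 0).smul _) (co_ip K θ 0 f.2 f.2) fun a z hz => ?_
    rw [real_inner_self_eq_norm_sq, mul_comm (1 / 4)]
    exact mul_le_mul_of_nonneg_left (hlow a z hz) (dD_nn hA K θ le_rfl (V_sub_Ω C a hz))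
  have hipos : 0 < ipW P K θ 0 f.1 f.1 := lt_of_lt_of_le (by positivity) hip
  refine ⟨f, hipos, ?_⟩
  have hE : BInt P K (fun a z => grH (K.w a) (f.1 1 a) (f.1 1 a) z) ≤ A * η ^ 2 :=
    hAe H π ξ η h1
  have hT : ∀ i, BInt P K (fun a z => ‖(TL C π (hc i) f - f).1 1 a z‖ ^ 2) ≤ B1 * η ^ 2 := by
    intro i
    have e : B1 * η ^ 2 = BInt P K (fun _ _ => η ^ 2 * (1 : ℝ)) := by
      rw [BInt_smul, ← hB1, mul_comm]
    rw [e]
    refine BInt_mono' P K (fun a z hz => ?_) (fun a => continuousOn_const) fun a z hz => ?_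
    · exact ((((TL C π (hc i) f - f).2.smooth 1 a z hz).continuousAt.norm).pow
        2).continuousWithinAt
    · rw [mul_one]
      have h5 : (TL C π (hc i) f - f).1 1 a z =
          av P (fun g => π g (π (c i) ξ - ξ)) 1 a z := by
        show π (c i) (av P (fun g => π g ξ) 1 a z) - av P (fun g => π g ξ) 1 a z = _
        unfold av
        rw [map_sum, ← Finset.sum_sub_distrib]
        refine Finset.sum_congr rfl fun b _ => ?_
        rw [map_smul, ← smul_sub]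
        congr 1
        show π (c i) (π (1 * C.κ a b z) ξ) - π (1 * C.κ a b z) ξ =
          π (1 * C.κ a b z) (π (c i) ξ - ξ)
        rw [map_sub]
        congr 1
        have g1 : π (c i) (π (1 * C.κ a b z) ξ) = (π (c i) * π (1 * C.κ a b z)) ξ := rfl
        have g2 : π (1 * C.κ a b z) (π (c i) ξ) = (π (1 * C.κ a b z) * π (c i)) ξ := rfl
        rw [g1, g2, ← map_mul, ← map_mul, hc]
      rw [h5]
      refine pow_le_pow_left₀ (norm_nonneg _) ?_ 2
      exact (H639.T6.fx_norm_le P π (π (c i) ξ - ξ) (V_sub_Ω C a hz)).trans (h2 i)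
  have hsum : ∑ i, BInt P K (fun a z => ‖(TL C π (hc i) f - f).1 1 a z‖ ^ 2) ≤
      Fintype.card ι * (B1 * η ^ 2) := by
    calc _ ≤ ∑ _i : ι, B1 * η ^ 2 := Finset.sum_le_sum fun i _ => hT i
      _ = _ := by rw [Finset.sum_const, Finset.card_univ, nsmul_eq_mul]
  calc _ ≤ A * η ^ 2 + Fintype.card ι * (B1 * η ^ 2) := add_le_add hE hsum
    _ ≤ R * η ^ 2 := by
      have := sq_nonneg η
      rw [hR]
      nlinarith
    _ ≤ R * (ε * d₀ / (4 * R)) := mul_le_mul_of_nonneg_left hη2 hRp.le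
    _ = ε * (d₀ / 4) := by field_simp
    _ ≤ _ := mul_le_mul_of_nonneg_left hip hε.le

/-! ### Escape for small `δ` -/

theorem ip_diffW (hA : A.A2Stmt) (hb : Sec C π 0 u) (hf : Sec C π 0 v) (hδ : 0 ≤ δ)
    {t : ℝ} (ht : 0 < t) : ipW P K θ δ u v - ipW P K θ 0 u v ≤
      t * (ipW P K θ δ u u - ipW P K θ 0 u u) + t⁻¹ * (ipW P K θ δ v v - ipW P K θ 0 v v) := by
  have e : ∀ {x y : Γ → C.I → Cm n → H}, Sec C π 0 x → Sec C π 0 y →
      ipW P K θ δ x y - ipW P K θ 0 x y =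
      BInt P K (fun a z => dD K θ δ a z * ⟪x 1 a z, y 1 a z⟫_ℝ -
        dD K θ 0 a z * ⟪x 1 a z, y 1 a z⟫_ℝ) := fun hx hy =>
    (BI_sub P K (co_ip K θ δ hx hy) (co_ip K θ 0 hx hy)).symm
  have F : ∀ {x y : Γ → C.I → Cm n → H}, Sec C π 0 x → Sec C π 0 y →
      CO C (fun a z => dD K θ δ a z * ⟪x 1 a z, y 1 a z⟫_ℝ -
        dD K θ 0 a z * ⟪x 1 a z, y 1 a z⟫_ℝ) := fun hx hy =>
    (co_ip K θ δ hx hy).sub (co_ip K θ 0 hx hy)
  rw [e hb hf, e hb hb, e hf hf, ← BInt_smul, ← BInt_smul,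
    ← BI_add P K ((F hb hb).smul t) ((F hf hf).smul t⁻¹)]
  refine BI_mono P K (F hb hf) (((F hb hb).smul t).add ((F hf hf).smul t⁻¹)) fun a z hz => ?_
  have h5 : dD K θ 0 a z ≤ dD K θ δ a z := (hA.DD_nonneg _ _ δ (w_pos K hz) hδ).2.1
  have h6 : ⟪u 1 a z, v 1 a z⟫_ℝ ≤ t * ⟪u 1 a z, u 1 a z⟫_ℝ + t⁻¹ * ⟪v 1 a z, v 1 a z⟫_ℝ := by
    rw [real_inner_self_eq_norm_sq, real_inner_self_eq_norm_sq]
    have h7 := real_inner_le_norm (u 1 a z) (v 1 a z)
    set x := ‖u 1 a z‖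
    set y := ‖v 1 a z‖
    have h8 : 0 ≤ t * (x - t⁻¹ * y / 2) ^ 2 := by positivity
    have h9 : t * (x - t⁻¹ * y / 2) ^ 2 = t * (x * x) - x * y + t⁻¹ * (y * y) / 4 := by
      field_simp
      ring
    have h10 : 0 ≤ t⁻¹ * (y * y) := mul_nonneg (inv_nonneg.2 ht.le) (mul_self_nonneg _)
    nlinarith
  have h10 : 0 ≤ dD K θ δ a z - dD K θ 0 a z := sub_nonneg.2 h5
  have h11 := mul_le_mul_of_nonneg_left h6 h10
  nlinarith

theorem exists_ip_upW (hA : A.A2Stmt) (P : PU C) (K : KM C) (θ : HF C q) :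
    ∃ c : ℝ, 0 < c ∧ ∀ (u : Γ → C.I → Cm n → H), Sec C π 0 u → ∀ δ : ℝ, 0 ≤ δ → δ ≤ 1 →
      ipW P K θ δ u u ≤ ipW P K θ 0 u u + c * δ * BInt P K (fun a z => ‖u 1 a z‖ ^ 2) := by
  obtain ⟨c, hc, hup⟩ := ups hA K θ
  refine ⟨c, hc, fun u hu δ hδ hδ1 => ?_⟩
  have F : CO C (fun a z => ‖u 1 a z‖ ^ 2) := fun a z hz =>
    ((hu.smooth 1 a z hz).continuousAt.norm.pow 2).continuousWithinAt
  rw [← BInt_smul, ipW, ipW, ← BI_add P K (co_ip K θ 0 hu hu) (F.smul _)]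
  refine BI_mono P K (co_ip K θ δ hu hu) ((co_ip K θ 0 hu hu).add (F.smul _)) fun a z hz => ?_
  have h3 := (hup δ hδ hδ1 a z hz).2.1
  rw [real_inner_self_eq_norm_sq]
  have h4 := mul_le_mul_of_nonneg_right h3 (sq_nonneg ‖u 1 a z‖)
  linarith

/-- **WJ** -/
theorem wjW (hA : A.A2Stmt) (P : PU C) (K : KM C) (θ : HF C q) (π : Γ →* (H ≃ₗᵢ[ℝ] H))
    (hE : EscW P K θ π) (f0 : SM C π) (h0 : 0 < ipW P K θ 0 f0.1 f0.1) :
    ∃ (J : ℕ) (d0 : ℝ), 0 < d0 ∧ ∀ d, 0 < d → d ≤ d0 → ∀ b : SM C π,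
      ipW P K θ d b.1 b.1 ≤ 2 * ipW P K θ d f0.1 f0.1 →
      enW P K θ d b.1 b.1 ≤ 4 / 2 ^ J * ipW P K θ d f0.1 f0.1 →
      ipW P K θ d b.1 f0.1 ≤ ipW P K θ d f0.1 f0.1 / 40 := by
  by_contra hcon
  push Not at hcon
  obtain ⟨c, hc, hup⟩ := exists_ip_upW (π := π) hA P K θ
  have hpos : ∀ j : ℕ, (0 : ℝ) < 1 / ((j : ℝ) + 1) := fun j => by positivity
  choose d hd0 hdj b hb1 hb2 hb3 using fun j : ℕ => hcon j (1 / ((j : ℝ) + 1)) (hpos j)
  have hd1 : ∀ j, d j ≤ 1 := fun j => (hdj j).trans (by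
    rw [div_le_one (by positivity)]
    have : (0 : ℝ) ≤ j := Nat.cast_nonneg j
    linarith)
  have hdt : Tendsto d atTop (𝓝 0) :=
    squeeze_zero (fun j => (hd0 j).le) hdj tendsto_one_div_add_atTop_nhds_zero_nat
  set A0 : ℝ := ipW P K θ 0 f0.1 f0.1 with hA0
  set S : ℝ := BInt P K (fun a z => ‖f0.1 1 a z‖ ^ 2) with hS
  set M : ℝ := A0 + c * |S| with hM
  have hfM : ∀ j, ipW P K θ (d j) f0.1 f0.1 ≤ M := by
    intro j
    refine (hup f0.1 f0.2 (d j) (hd0 j).le (hd1 j)).trans ?_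
    have h1 : c * d j * S ≤ c * |S| := by
      calc c * d j * S ≤ c * d j * |S| :=
            mul_le_mul_of_nonneg_left (le_abs_self _) (mul_nonneg hc.le (hd0 j).le)
        _ ≤ c * 1 * |S| := by
            gcongr
            exact hd1 j
        _ = c * |S| := by ring
    linarith
  have hMpos : 0 < M := by positivity
  have hen : Tendsto (fun j => enW P K θ 0 (b j).1 (b j).1) atTop (𝓝 0) := by
    have h1 : Tendsto (fun j : ℕ => 4 / 2 ^ j * M) atTop (𝓝 0) := by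
      have h2 : Tendsto (fun j : ℕ => (4 * M) * ((1 / 2 : ℝ) ^ j)) atTop (𝓝 ((4 * M) * 0)) :=
        (tendsto_pow_atTop_nhds_zero_of_lt_one (by norm_num) (by norm_num)).const_mul _
      rw [mul_zero] at h2
      refine h2.congr fun j => ?_
      rw [one_div, inv_pow]
      ring
    refine squeeze_zero (fun j => en_nnW hA le_rfl (b j).2) (fun j => ?_) h1
    have h3 := en_zero_leW (P := P) (K := K) (θ := θ) hA (hd0 j).le (b j).2
    have h4 := mul_nonneg (hd0 j).le (int_eW_nn (P := P) (K := K) (θ := θ) hA (b j).2)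
    refine (le_trans (by linarith) h3).trans ((hb2 j).trans ?_)
    exact mul_le_mul_of_nonneg_left (hfM j) (by positivity)
  have hip : Tendsto (fun j => ipW P K θ 0 (b j).1 f0.1) atTop (𝓝 0) := by
    refine hE (fun j => (b j).1) (fun j => (b j).2) ⟨2 * M, fun j => ?_⟩ hen f0.1 f0.2
    exact (ip_zero_leW hA (hd0 j).le (b j).2).trans ((hb1 j).trans (by linarith [hfM j]))
  set t : ℝ := A0 / (320 * M) with ht
  have ht0 : 0 < t := by positivity
  have hlim : Tendsto (fun j => ipW P K θ 0 (b j).1 f0.1 +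
      (t * (2 * M) + t⁻¹ * (c * d j * |S|))) atTop
      (𝓝 (0 + (t * (2 * M) + t⁻¹ * (c * 0 * |S|)))) :=
    hip.add (tendsto_const_nhds.add (((hdt.const_mul c).mul_const _).const_mul _))
  have hval : 0 + (t * (2 * M) + t⁻¹ * (c * 0 * |S|)) < A0 / 40 := by
    rw [mul_zero, zero_mul, mul_zero, add_zero, zero_add, ht]
    have : A0 / (320 * M) * (2 * M) = A0 / 160 := by
      field_simp
      ring
    rw [this]
    linarith
  obtain ⟨j, hj⟩ := (hlim.eventually (gt_mem_nhds hval)).exists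
  have h1 := ip_diffW (P := P) (K := K) (θ := θ) hA (b j).2 f0.2 (hd0 j).le ht0
  have h2 := hup f0.1 f0.2 (d j) (hd0 j).le (hd1 j)
  have h3' : 0 ≤ ipW P K θ 0 (b j).1 (b j).1 := ip_nnW hA le_rfl _
  have h4 : ipW P K θ (d j) (b j).1 (b j).1 - ipW P K θ 0 (b j).1 (b j).1 ≤ 2 * M := by
    have := hb1 j
    linarith [hfM j]
  have h5 : ipW P K θ (d j) f0.1 f0.1 - ipW P K θ 0 f0.1 f0.1 ≤ c * d j * |S| := by
    have : c * d j * S ≤ c * d j * |S| :=
      mul_le_mul_of_nonneg_left (le_abs_self _) (mul_nonneg hc.le (hd0 j).le)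
    linarith
  have h6 : ipW P K θ (d j) (b j).1 f0.1 ≤
      ipW P K θ 0 (b j).1 f0.1 + (t * (2 * M) + t⁻¹ * (c * d j * |S|)) := by
    have h7 := mul_le_mul_of_nonneg_left h4 ht0.le
    have h8 := mul_le_mul_of_nonneg_left h5 (inv_nonneg.2 ht0.le)
    linarith
  have h7 := hb3 j
  have h8 := ip_zero_leW (P := P) (K := K) (θ := θ) hA (hd0 j).le f0.2
  have h9 : A0 / 40 ≤ ipW P K θ (d j) f0.1 f0.1 / 40 := by
    rw [hA0]; linarith
  linarith

end glob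

end Vale.Agent.P284.H402.T
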