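import Vale.Agent.P284.H402.T.App

/-!
# P284, theorem T3 (A'')_W (helper402): homogeneity, the normalised solution
-/

open scoped Manifold ContDiff Topology Pointwise ComplexConjugate ComplexOrder Matrix InnerProductSpace
open Filter Set Metric MeasureTheory

noncomputable section

namespace Vale.Agent.P284.H402.T

open Vale.Agent.P272.K Vale.Agent.P272.K.C2 Vale.Agent.P284.H248 Vale.Agent.P284.H894
  Vale.Agent.P284.H894.G Vale.Agent.P284.H894.V Vale.Agent.P284.H913.V Vale.Agent.P284.H402.A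
  Vale.Agent.P284.H359.V

open Vale.Agent.P284.H639.V (V_sub_Ω)
open Vale.Agent.P284.H66.S7 (BInt_congr BInt_smul)

open Vale.Agent.P284.H287.T (dH ddH Sec)

section alg
variable {n : ℕ} {H : Type} [NormedAddCommGroup H] [InnerProductSpace ℝ H]

theorem gM_hom (M : Matrix (Fin n) (Fin n) ℂ) (r : ℝ) (x y : Fin n × Bool → H) :
    gM M (fun a => r • x a) (fun a => r • y a) = r ^ 2 * gM M x y := by
  unfold gM
  simp only [Finset.mul_sum, real_inner_smul_left, real_inner_smul_right]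
  exact Finset.sum_congr rfl fun a _ => Finset.sum_congr rfl fun b _ => by ring

theorem lM_hom (M : Matrix (Fin n) (Fin n) ℂ) (r : ℝ) (X : Fin n × Bool → Fin n × Bool → H) :
    lM M (fun a b => r • X a b) = r • lM M X := by
  unfold lM
  simp only [Finset.smul_sum]
  exact Finset.sum_congr rfl fun a _ => Finset.sum_congr rfl fun b _ => smul_comm _ _ _

theorem tM_hom (A B : Matrix (Fin n) (Fin n) ℂ) (r : ℝ) (X Y : Fin n × Bool → Fin n × Bool → H) :
    tM A B (fun a b => r • X a b) (fun a b => r • Y a b) = r ^ 2 * tM A B X Y := by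
  unfold tM
  simp only [Finset.mul_sum, real_inner_smul_left, real_inner_smul_right]
  exact Finset.sum_congr rfl fun a _ => Finset.sum_congr rfl fun b _ =>
    Finset.sum_congr rfl fun c _ => Finset.sum_congr rfl fun d _ => by ring

end alg

section glob
variable {n q : ℕ} {Γ : Type} [Group Γ] {C : Coc n Γ} {H : Type} [NormedAddCommGroup H]
  [InnerProductSpace ℝ H] {π : Γ →* (H ≃ₗᵢ[ℝ] H)} {u : Γ → C.I → Cm n → H}

/-- `r u` -/
def scW (r : ℝ) (u : Γ → C.I → Cm n → H) (γ : Γ) (a : C.I) (z : Cm n) : H := r • u γ a z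

theorem sec_sc (r : ℝ) (hu : Sec C π 0 u) : Sec C π 0 (scW r u) :=
  (r • (⟨u, hu⟩ : H977.T.SM C π)).2

theorem dH_sc (r : ℝ) (hu : Sec C π 0 u) (γ : Γ) {a : C.I} {z : Cm n} (hz : z ∈ C.Ω a) :
    dH (scW r u γ a) z = fun p => r • dH (u γ a) z p :=
  funext fun p => H977.T.dH_smul r (hu.smooth γ a z hz) p

theorem ddH_sc (r : ℝ) (hu : Sec C π 0 u) (γ : Γ) {a : C.I} {z : Cm n} (hz : z ∈ C.Ω a) :
    ddH (scW r u γ a) z = fun p s => r • ddH (u γ a) z p s :=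
  funext fun p => funext fun s => H977.T.ddH_smul r (hu.smooth γ a z hz) p s

variable (K : KM C) (θ : HF C q)

theorem vW_sc (r : ℝ) (hu : Sec C π 0 u) {a : C.I} {z : Cm n} (hz : z ∈ C.Ω a) (δ : ℝ) :
    vW K θ δ a (scW r u 1 a) (scW r u 1 a) z = r ^ 2 * vW K θ δ a (u 1 a) (u 1 a) z := by
  rw [vW, dH_sc r hu 1 hz, gM_hom, vW]

theorem eW_sc (r : ℝ) (hu : Sec C π 0 u) {a : C.I} {z : Cm n} (hz : z ∈ C.Ω a) :
    eW K θ a (scW r u 1 a) z = r ^ 2 * eW K θ a (u 1 a) z := by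
  rw [eW, dH_sc r hu 1 hz, gM_hom, eW]

theorem oW_sc (r : ℝ) (hu : Sec C π 0 u) {a : C.I} {z : Cm n} (hz : z ∈ C.Ω a) :
    oW K θ a (scW r u 1 a) z = r ^ 2 * oW K θ a (u 1 a) z := by
  rw [oW, ddH_sc r hu 1 hz, tM_hom, oW]

theorem bW_sc (r : ℝ) (hu : Sec C π 0 u) {a : C.I} {z : Cm n} (hz : z ∈ C.Ω a) :
    bW K θ a (scW r u 1 a) z = r ^ 2 * bW K θ a (u 1 a) z := by
  rw [bW, ddH_sc r hu 1 hz, tM_hom, bW]

theorem pW_sc (r : ℝ) (hu : Sec C π 0 u) {a : C.I} {z : Cm n} (hz : z ∈ C.Ω a) :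
    pW K θ a (scW r u 1 a) z = r ^ 2 * pW K θ a (u 1 a) z := by
  rw [pW, lW, ddH_sc r hu 1 hz, lM_hom, pW, lW, norm_smul, mul_pow, Real.norm_eq_abs, sq_abs,
    mul_div_assoc]

variable (P : PU C)

theorem en_sc (r : ℝ) (hu : Sec C π 0 u) (δ : ℝ) :
    enW P K θ δ (scW r u) (scW r u) = r ^ 2 * enW P K θ δ u u := by
  rw [enW, enW, ← BInt_smul]
  exact BInt_congr P K fun a z hz => vW_sc K θ r hu (V_sub_Ω C a hz) δ

theorem ip_sc (r : ℝ) (u : Γ → C.I → Cm n → H) (δ : ℝ) :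
    ipW P K θ δ (scW r u) (scW r u) = r ^ 2 * ipW P K θ δ u u := by
  rw [ipW, ipW, ← BInt_smul]
  refine BInt_congr P K fun a z hz => ?_
  simp only [scW, real_inner_smul_left, real_inner_smul_right]
  ring

theorem int_pW_sc (r : ℝ) (hu : Sec C π 0 u) :
    BInt P K (fun a z => pW K θ a (scW r u 1 a) z) =
      r ^ 2 * BInt P K (fun a z => pW K θ a (u 1 a) z) := by
  rw [← BInt_smul]
  exact BInt_congr P K fun a z hz => pW_sc K θ r hu (V_sub_Ω C a hz)

theorem int_eW_sc (r : ℝ) (hu : Sec C π 0 u) :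
    BInt P K (fun a z => eW K θ a (scW r u 1 a) z) =
      r ^ 2 * BInt P K (fun a z => eW K θ a (u 1 a) z) := by
  rw [← BInt_smul]
  exact BInt_congr P K fun a z hz => eW_sc K θ r hu (V_sub_Ω C a hz)

theorem tr_sc (π : Γ →* (H ≃ₗᵢ[ℝ] H)) (c : Γ) (r : ℝ) (u : Γ → C.I → Cm n → H) :
    trW π c (scW r u) = scW r (trW π c u) := by
  funext γ a z
  simp only [trW, scW, map_smul, smul_sub]

theorem sec_trW {c : Γ} (hc : ∀ g, c * g = g * c) (hu : Sec C π 0 u) : Sec C π 0 (trW π c u) where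
  smooth γ a z hz :=
    ((π c).contDiff.contDiffAt.comp z (hu.smooth γ a z hz)).sub (hu.smooth γ a z hz)
  compat γ a b z hz := by
    show π c (u γ a z) - u γ a z = _
    rw [hu.compat γ a b z hz]
    rfl
  equi g γ a z hz := by
    show π c (u (g * γ) a z) - u (g * γ) a z = π g (π c (u γ a z) - u γ a z) + (0 : Γ → H) g
    have e1 : π c (π g (u γ a z)) = π g (π c (u γ a z)) := by
      have h1 : (π c * π g) (u γ a z) = (π g * π c) (u γ a z) := by
        rw [← map_mul, ← map_mul, hc]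
      exact h1
    rw [hu.equi g γ a z hz, Pi.zero_apply, add_zero, add_zero, map_sub, e1]

/-- **The normalised solution.** -/
structure NW (P : PU C) (K : KM C) (θ : HF C q) (π : Γ →* (H ≃ₗᵢ[ℝ] H)) {ι : Type} [Fintype ι]
    (c : ι → Γ) (c₀ ε : ℝ) (u : Γ → C.I → Cm n → H) (s : ℝ) (m : C.I → Cm n → ℝ) : Prop where
  sec : Sec C π 0 u
  hs : 1 ≤ s
  one : enW P K θ 0 u u = 1
  bd : BD C m
  dom : ∀ a, ∀ z ∈ C.Ω a, 0 ≤ oW K θ a (u 1 a) z ∧ 0 ≤ bW K θ a (u 1 a) z ∧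
    oW K θ a (u 1 a) z + bW K θ a (u 1 a) z ≤ m a z
  ineq : ipW P K θ 0 u u + s ^ 2 * BInt P K (fun a z => pW K θ a (u 1 a) z) +
      ε⁻¹ * (BInt P K (fun a z => eW K θ a (u 1 a) z) + s * BInt P K m +
        ∑ i, s * enW P K θ 0 (trW π (c i) u) (trW π (c i) u)) ≤ c₀ * s

theorem exists_nw {P : PU C} {K : KM C} {θ : HF C q} {ι : Type} [Fintype ι] {c : ι → Γ}
    (hc : ∀ i g, c i * g = g * c i) {c₀ ε : ℝ} (h : AppW P K θ π c c₀ ε) :
    ∃ u s m, NW P K θ π c c₀ ε u s m := by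
  obtain ⟨u, s, m, hu, hs, hpos, hm, hdom, hineq⟩ := h
  set V := enW P K θ 0 u u with hV
  set r : ℝ := (Real.sqrt V)⁻¹ with hr
  have hr2 : r ^ 2 = V⁻¹ := by rw [hr, inv_pow, Real.sq_sqrt hpos.le]
  have hr0 : 0 < r ^ 2 := by rw [hr2]; exact inv_pos.2 hpos
  refine ⟨scW r u, s, fun a z => r ^ 2 * m a z, sec_sc r hu, hs, ?_, bd_smul hm _,
    fun a z hz => ?_, ?_⟩
  · rw [en_sc K θ P r hu, hr2]
    exact inv_mul_cancel₀ hpos.ne'
  · obtain ⟨h1, h2, h3⟩ := hdom a z hz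
    rw [oW_sc K θ r hu hz, bW_sc K θ r hu hz]
    refine ⟨mul_nonneg hr0.le h1, mul_nonneg hr0.le h2, ?_⟩
    rw [← mul_add]
    exact mul_le_mul_of_nonneg_left h3 hr0.le
  · have e1 : ∀ i, enW P K θ 0 (trW π (c i) (scW r u)) (trW π (c i) (scW r u)) =
        r ^ 2 * enW P K θ 0 (trW π (c i) u) (trW π (c i) u) := by
      intro i
      rw [tr_sc]
      exact en_sc K θ P _ (sec_trW (hc i) hu) 0
    simp only [e1]
    rw [ip_sc K θ P r u, int_pW_sc K θ P r hu, int_eW_sc K θ P r hu, BInt_smul]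
    have h2 := mul_le_mul_of_nonneg_left hineq hr0.le
    have e2 : r ^ 2 * (c₀ * (s * V)) = c₀ * s := by
      rw [hr2]
      have hV0 : V ≠ 0 := hpos.ne'
      field_simp
    rw [e2] at h2
    refine le_trans (le_of_eq ?_) h2
    have e3 : ∑ i, s * (r ^ 2 * enW P K θ 0 (trW π (c i) u) (trW π (c i) u)) =
        r ^ 2 * ∑ i, s * enW P K θ 0 (trW π (c i) u) (trW π (c i) u) := by
      rw [Finset.mul_sum]
      refine Finset.sum_congr rfl fun i _ => ?_
      ring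
    rw [e3]
    ring

namespace NW
variable {P : PU C} {K : KM C} {θ : HF C q} {ι : Type} [Fintype ι] {c : ι → Γ} {c₀ ε s : ℝ}
  {m : C.I → Cm n → ℝ}

theorem m_nn (h : NW P K θ π c c₀ ε u s m) : 0 ≤ BInt P K m :=
  BI_nn P K fun a z hz => (add_nonneg (h.dom a z hz).1 (h.dom a z hz).2.1).trans (h.dom a z hz).2.2

theorem p_nn (_ : NW P K θ π c c₀ ε u s m) : 0 ≤ BInt P K (fun a z => pW K θ a (u 1 a) z) :=
  BI_nn P K fun _ _ hz => div_nonneg (sq_nonneg _) (dD_nn H279.a2Stmt K θ le_rfl hz)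

theorem i_nn (_ : NW P K θ π c c₀ ε u s m) : 0 ≤ ipW P K θ 0 u u :=
  ip_nnW H279.a2Stmt le_rfl u

theorem e_nn (h : NW P K θ π c c₀ ε u s m) : 0 ≤ BInt P K (fun a z => eW K θ a (u 1 a) z) :=
  int_eW_nn H279.a2Stmt h.sec

theorem t_nn (h : NW P K θ π c c₀ ε u s m) {g : Γ} (hg : ∀ x, g * x = x * g) :
    0 ≤ enW P K θ 0 (trW π g u) (trW π g u) :=
  en_nnW H279.a2Stmt le_rfl (sec_trW hg h.sec)

theorem s_pos (h : NW P K θ π c c₀ ε u s m) : 0 < s := zero_lt_one.trans_le h.hs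

theorem sum_nn (h : NW P K θ π c c₀ ε u s m) (hc : ∀ i g, c i * g = g * c i) :
    0 ≤ ∑ i, s * enW P K θ 0 (trW π (c i) u) (trW π (c i) u) :=
  Finset.sum_nonneg fun i _ => mul_nonneg h.s_pos.le (h.t_nn (hc i))

theorem key (h : NW P K θ π c c₀ ε u s m) (hε : 0 < ε) :
    BInt P K (fun a z => eW K θ a (u 1 a) z) + s * BInt P K m +
        ∑ i, s * enW P K θ 0 (trW π (c i) u) (trW π (c i) u) ≤ c₀ * s * ε := by
  have h1 := h.ineq
  have h2 := h.i_nn
  have h3 := mul_nonneg (sq_nonneg s) h.p_nn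
  set Q := BInt P K (fun a z => eW K θ a (u 1 a) z) + s * BInt P K m +
        ∑ i, s * enW P K θ 0 (trW π (c i) u) (trW π (c i) u) with hQ
  have h4 : ε⁻¹ * Q ≤ c₀ * s := by linarith
  rwa [inv_mul_eq_div, div_le_iff₀ hε] at h4

theorem m_le (h : NW P K θ π c c₀ ε u s m) (hε : 0 < ε) (hc : ∀ i g, c i * g = g * c i) :
    BInt P K m ≤ c₀ * ε := by
  have h1 := h.key hε
  have h2 := h.e_nn
  have h3 := h.sum_nn hc
  have h4 : s * BInt P K m ≤ s * (c₀ * ε) := by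
    have : c₀ * s * ε = s * (c₀ * ε) := by ring
    linarith
  exact le_of_mul_le_mul_left h4 h.s_pos

theorem e_le (h : NW P K θ π c c₀ ε u s m) (hε : 0 < ε) (hc : ∀ i g, c i * g = g * c i) :
    BInt P K (fun a z => eW K θ a (u 1 a) z) ≤ c₀ * s * ε := by
  have h1 := h.key hε
  have h2 := mul_nonneg h.s_pos.le h.m_nn
  have h3 := h.sum_nn hc
  linarith

theorem tr_le (h : NW P K θ π c c₀ ε u s m) (hε : 0 < ε) (hc : ∀ i g, c i * g = g * c i) (i : ι) :
    enW P K θ 0 (trW π (c i) u) (trW π (c i) u) ≤ c₀ * ε := by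
  have h1 := h.key hε
  have h2 := mul_nonneg h.s_pos.le h.m_nn
  have h3 := h.e_nn
  have h5 : s * enW P K θ 0 (trW π (c i) u) (trW π (c i) u) ≤
      ∑ i, s * enW P K θ 0 (trW π (c i) u) (trW π (c i) u) :=
    Finset.single_le_sum (f := fun i => s * enW P K θ 0 (trW π (c i) u) (trW π (c i) u))
      (fun j _ => mul_nonneg h.s_pos.le (h.t_nn (hc j))) (Finset.mem_univ i)
  have h4 : s * enW P K θ 0 (trW π (c i) u) (trW π (c i) u) ≤ s * (c₀ * ε) := by
    have : c₀ * s * ε = s * (c₀ * ε) := by ring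
    linarith
  exact le_of_mul_le_mul_left h4 h.s_pos

theorem ip_le (h : NW P K θ π c c₀ ε u s m) (hε : 0 < ε) (hc : ∀ i g, c i * g = g * c i) :
    ipW P K θ 0 u u ≤ c₀ * s := by
  have h1 := h.ineq
  have h2 := mul_nonneg h.s_pos.le h.m_nn
  have h3 := h.e_nn
  have h4 := h.sum_nn hc
  have h5 := mul_nonneg (sq_nonneg s) h.p_nn
  have h6 := mul_nonneg (inv_pos.2 hε).le (add_nonneg (add_nonneg h3 h2) h4)
  linarith

theorem p_le (h : NW P K θ π c c₀ ε u s m) (hε : 0 < ε) (hc : ∀ i g, c i * g = g * c i) :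
    s * BInt P K (fun a z => pW K θ a (u 1 a) z) ≤ c₀ := by
  have h1 := h.ineq
  have h2 := mul_nonneg h.s_pos.le h.m_nn
  have h3 := h.e_nn
  have h4 := h.sum_nn hc
  have h5 := h.i_nn
  have h6 := mul_nonneg (inv_pos.2 hε).le (add_nonneg (add_nonneg h3 h2) h4)
  have h7 : s * (s * BInt P K (fun a z => pW K θ a (u 1 a) z)) ≤ s * c₀ := by
    have e1 : s * (s * BInt P K (fun a z => pW K θ a (u 1 a) z)) =
      s ^ 2 * BInt P K (fun a z => pW K θ a (u 1 a) z) := by ring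
    rw [e1, mul_comm s c₀]
    linarith
  exact le_of_mul_le_mul_left h7 h.s_pos

end NW

end glob

end Vale.Agent.P284.H402.T
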