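import Vale.Agent.P284.H402.T.J

/-!
# P284, theorem T3, module (A'')_W (helper402). DEFINITIONS AND STATEMENTS

Sections `u : Γ → C.I → Cm n → H`, `Sec C π 0 u`, with values in real Hilbert spaces `H`, `π` orthogonal.
All densities are functions on the base; for `f : Cm n → H` (a local function on the chart `a`):
* `vW K θ δ a f h` : `⟨Ω_A ∧ ∂f, Ω_A ∧ ∂h⟩` for `δ = 0`; `lW K θ 0 a f = D p`; `pW = |D p|² / D`;
* `oW`, `bW`, `eW` as `oA`, `bA`, `eA` of `H402.A`.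
-/

open scoped Manifold ContDiff Topology Pointwise ComplexConjugate ComplexOrder Matrix InnerProductSpace
open Filter Set Metric MeasureTheory

noncomputable section

namespace Vale.Agent.P284.H402.T

open Vale.Agent.P272.K Vale.Agent.P284.H248 Vale.Agent.P284.H894
  Vale.Agent.P284.H894.G Vale.Agent.P284.H894.V Vale.Agent.P284.H913.V Vale.Agent.P284.H402.A

open Vale.Agent.P284.H287.T (dH ddH Sec)

/-- the matrix of `E^{(q-1)}` -/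
def EE {n q : ℕ} (w : Matrix (Fin n) (Fin n) ℂ) (θ : Matrix (Fin n) (Fin q) ℂ) :
    Matrix (Fin n) (Fin n) ℂ :=
  Matrix.of fun i j => ∑ k, ((θ.updateCol k (Pi.single i 1))ᴴ * w⁻¹ *
    θ.updateCol k (Pi.single j 1)).det

section
variable {n q : ℕ} {Γ : Type} [Group Γ] {C : Coc n Γ} {H : Type} [NormedAddCommGroup H]
  [InnerProductSpace ℝ H]

/-- density of the energy -/
def vW (K : KM C) (θ : HF C q) (δ : ℝ) (a : C.I) (f h : Cm n → H) (z : Cm n) : ℝ :=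
  gM (AA (K.w a z) (θ.th a z) δ) (dH f z) (dH h z)

/-- `D_δ · (Laplacian of w + δ⁻¹ θ θᴴ)` -/
def lW (K : KM C) (θ : HF C q) (δ : ℝ) (a : C.I) (f : Cm n → H) (z : Cm n) : H :=
  lM (AA (K.w a z) (θ.th a z) δ) (ddH f z)

/-- density of `|Ω_A ∧ ∂∂̄f|²` -/
def oW (K : KM C) (θ : HF C q) (a : C.I) (f : Cm n → H) (z : Cm n) : ℝ :=
  tM (AA (K.w a z) (θ.th a z) 0) (K.w a z)⁻¹ (ddH f z) (ddH f z)

/-- density of `D |T⁻¹ θᴴ w⁻¹ ∂∂̄f P_v^{1/2}|²` -/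
def bW (K : KM C) (θ : HF C q) (a : C.I) (f : Cm n → H) (z : Cm n) : ℝ :=
  tM (AA (K.w a z) (θ.th a z) 0) (BB (K.w a z) (θ.th a z)) (ddH f z) (ddH f z)

/-- density of `D |p|²` -/
def pW (K : KM C) (θ : HF C q) (a : C.I) (f : Cm n → H) (z : Cm n) : ℝ :=
  ‖lW K θ 0 a f z‖ ^ 2 / dD K θ 0 a z

/-- density of `E^{(q-1)}` -/
def eW (K : KM C) (θ : HF C q) (a : C.I) (f : Cm n → H) (z : Cm n) : ℝ :=
  gM (EE (K.w a z) (θ.th a z)) (dH f z) (dH f z)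

/-- `∫ D_δ ⟪u, v⟫` -/
def ipW (P : PU C) (K : KM C) (θ : HF C q) (δ : ℝ) (u v : Γ → C.I → Cm n → H) : ℝ :=
  BInt P K fun a z => dD K θ δ a z * ⟪u 1 a z, v 1 a z⟫_ℝ

/-- the energy -/
def enW (P : PU C) (K : KM C) (θ : HF C q) (δ : ℝ) (u v : Γ → C.I → Cm n → H) : ℝ :=
  BInt P K fun a z => vW K θ δ a (u 1 a) (v 1 a) z

/-- `T_c u - u`, `T_c u = π(c) ∘ u` -/
def trW (π : Γ →* (H ≃ₗᵢ[ℝ] H)) (c : Γ) (u : Γ → C.I → Cm n → H) (γ : Γ) (a : C.I) (z : Cm n) : H :=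
  π c (u γ a z) - u γ a z

/-- **Escape** (helper661). -/
def EscW (P : PU C) (K : KM C) (θ : HF C q) (π : Γ →* (H ≃ₗᵢ[ℝ] H)) : Prop :=
  ∀ h : ℕ → Γ → C.I → Cm n → H, (∀ j, Sec C π 0 (h j)) →
    (∃ B : ℝ, ∀ j, ipW P K θ 0 (h j) (h j) ≤ B) →
    Tendsto (fun j => enW P K θ 0 (h j) (h j)) atTop (𝓝 0) → ∀ f, Sec C π 0 f →
    Tendsto (fun j => ipW P K θ 0 (h j) f) atTop (𝓝 0)

/-- **Conclusion of (A'')_W** for one representation. -/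
def AppW (P : PU C) (K : KM C) (θ : HF C q) (π : Γ →* (H ≃ₗᵢ[ℝ] H)) {ι : Type} [Fintype ι]
    (c : ι → Γ) (c₀ ε : ℝ) : Prop :=
  ∃ (u : Γ → C.I → Cm n → H) (s : ℝ) (m : C.I → Cm n → ℝ), Sec C π 0 u ∧ 1 ≤ s ∧
    0 < enW P K θ 0 u u ∧ BD C m ∧
    (∀ a, ∀ z ∈ C.Ω a, 0 ≤ oW K θ a (u 1 a) z ∧ 0 ≤ bW K θ a (u 1 a) z ∧
      oW K θ a (u 1 a) z + bW K θ a (u 1 a) z ≤ m a z) ∧
    ipW P K θ 0 u u + s ^ 2 * BInt P K (fun a z => pW K θ a (u 1 a) z) +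
      ε⁻¹ * (BInt P K (fun a z => eW K θ a (u 1 a) z) + s * BInt P K m +
        ∑ i, s * enW P K θ 0 (trW π (c i) u) (trW π (c i) u)) ≤ c₀ * (s * enW P K θ 0 u u)

end

/-- **(A'')_W**, `q ≥ 1`: `c₀` does not depend on the representation. -/
def AppWStmt : Prop :=
  ∀ (n q : ℕ), 0 < q → ∀ (Γ : Type) [Group Γ] (C : Coc n Γ) (P : PU C) (K : KM C) (θ : HF C q)
    (ι : Type) [Fintype ι] (c : ι → Γ), (∀ i g, c i * g = g * c i) →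
    ∃ c₀ : ℝ, 0 < c₀ ∧ ∀ ε : ℝ, 0 < ε → ∃ η : ℝ, 0 < η ∧
      ∀ (H : Type) [NormedAddCommGroup H] [InnerProductSpace ℝ H] [CompleteSpace H]
        (π : Γ →* (H ≃ₗᵢ[ℝ] H)), EscW P K θ π → ∀ ξ : H, ‖ξ‖ = 1 →
        (∀ g ∈ C.N, ‖π g ξ - ξ‖ ≤ η) → (∀ i, ‖π (c i) ξ - ξ‖ ≤ η) → AppW P K θ π c c₀ ε

end Vale.Agent.P284.H402.T
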